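import Vale.Agent.P210G.Gid
import Vale.Agent.P366M.Calc2

/-!
# P210T: cutting off the tail of a graph move
-/

open Filter Topology Set
open scoped ContDiff
open Vale.Agent.P366M Vale.Agent.P366M.Gr Vale.Agent.P366M.Y.C Vale.Agent.P366M.Y.C.GbH
open Vale.Agent.P210G

noncomputable section

namespace Vale.Agent.P210T

variable {n : ℕ} {M : Type} [Mf0 n M]

/-- the 1-form dual to a vector field -/
def fl (g : Fld n M) (X : Fin n → M → ℝ) (i : Fin n) (x : M) : ℝ := ∑ j, g x i j * X j x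

/-- a covariant 2-tensor on two vector fields -/
def gq (T : Fld n M) (X Y : Fin n → M → ℝ) (x : M) : ℝ := ∑ i, ∑ j, T x i j * X i x * Y j x

/-- the correction `χ² H N - H' N'` -/
def tx (g : Fld n M) (v : Fin n → M → ℝ) (χ w w' : M → ℝ) : Fin n → M → ℝ := fun i y =>
  χ y ^ 2 * (hv g v w y * nv g w i y) - hv g v w' y * nv g w' i y

/-- the drift on the graph of the cut off function `w'` -/
def tv (g : Fld n M) (v : Fin n → M → ℝ) (χ w w' : M → ℝ) : Fin n → M → ℝ := fun i y =>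
  vg g v w' i y + fl (gb g 1 w') (tx g v χ w w') i y

variable {g T : Fld n M} {v X Y Z : Fin n → M → ℝ} {u w w' χ : M → ℝ} {x : M}

/-! ### algebra -/

theorem sh_fl (hg : Met g) (X : Fin n → M → ℝ) : sh g (fl g X) = X := by
  funext i y; exact hg.up_g_mul y i fun j => X j y

theorem cc_fl (hg : Met g) (hX : CV ∞ X) : CC ∞ (fl g X) := hg.sm.lower le_rfl hX

omit [Mf0 n M] in
theorem gq_eq_ev (T : Fld n M) (X Y : Fin n → M → ℝ) (x : M) : gq T X Y x = ev (fl T Y) X x := by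
  simp only [gq, ev, fl, Finset.sum_mul]
  exact Finset.sum_congr rfl fun _ _ => Finset.sum_congr rfl fun _ _ => by ring

theorem iv_fl (hg : Met g) (X Y : Fin n → M → ℝ) (x : M) :
    iv g (fl g Y) (fl g X) x = gq g X Y x := by rw [iv_eq_ev, sh_fl hg, gq_eq_ev]

theorem gq_nonneg (hg : Met g) (X : Fin n → M → ℝ) (x : M) : 0 ≤ gq g X X x :=
  hg.g_nonneg x fun i => X i x

theorem gq_sub_le (hg : Met g) {s t : ℝ} (h : ∀ i, Z i x = s * X i x - t * Y i x) :
    gq g Z Z x ≤ 2 * (s ^ 2 * gq g X X x) + 2 * (t ^ 2 * gq g Y Y x) := by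
  have h1 := gq_nonneg hg (fun i _ => s * X i x + t * Y i x) x
  have h2 : gq g Z Z x + gq g (fun i _ => s * X i x + t * Y i x) (fun i _ => s * X i x + t * Y i x)
      x = 2 * (s ^ 2 * gq g X X x) + 2 * (t ^ 2 * gq g Y Y x) := by
    simp only [gq, h, Finset.mul_sum, ← Finset.sum_add_distrib]
    exact Finset.sum_congr rfl fun _ _ => Finset.sum_congr rfl fun _ _ => by ring
  linarith

theorem gq_gb (g : Fld n M) (w : M → ℝ) (X : Fin n → M → ℝ) (x : M) :
    gq (gb g 1 w) X X x = gq g X X x + ev (df w) X x ^ 2 := by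
  simp only [gq, gb, ev, df, sq, Finset.sum_mul_sum, ← Finset.sum_add_distrib, Pi.one_apply]
  exact Finset.sum_congr rfl fun _ _ => Finset.sum_congr rfl fun _ _ => by ring

theorem gq_nv (hg : Met g) (w : M → ℝ) (x : M) :
    gq g (nv g w) (nv g w) x = ip g w w x / ww g 1 w x ^ 2 := by
  have e : ∀ i, fl g (nv g w) i x = pd i w x / ww g 1 w x := fun i => by
    simp only [fl, nv, ← mul_div_assoc, ← Finset.sum_div]
    rw [← hg.g_up_mul x i fun j => pd j w x]; rfl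
  rw [gq_eq_ev, ev_lin (s := (ww g 1 w x)⁻¹) (t := 0) (b := df w) (c := df w) fun i => by
    rw [e, df]; ring, ev_df_nv hg, dn]
  ring

theorem ns_nn (hg : Met g) (x : M) (S : Fin n → Fin n → ℝ) :
    0 ≤ ∑ i, ∑ j, ∑ k, ∑ l, up g i k x * up g j l x * S i j * S k l := by
  refine (((hg.inv_pos x).posSemidef.kronecker
    (hg.inv_pos x).posSemidef).dotProduct_mulVec_nonneg fun p => S p.1 p.2).trans_eq ?_
  simp only [dotProduct, Matrix.mulVec, star_trivial, Finset.mul_sum, Matrix.kroneckerMap,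
    Matrix.of_apply, up, Fintype.sum_prod_type]
  exact Finset.sum_congr rfl fun i _ => Finset.sum_congr rfl fun j _ =>
    Finset.sum_congr rfl fun k _ => Finset.sum_congr rfl fun l _ => by ring

theorem sum4_comm (F : Fin n → Fin n → Fin n → Fin n → ℝ) :
    ∑ i, ∑ j, ∑ k, ∑ l, F i j k l = ∑ k, ∑ l, ∑ i, ∑ j, F i j k l := by
  have := Finset.sum_comm (s := Finset.univ) (t := Finset.univ)
    (f := fun p q : Fin n × Fin n => F p.1 p.2 q.1 q.2)
  simpa only [Fintype.sum_prod_type] using this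

theorem normSq_nonneg (hg : Met g) (T : Fld n M) (x : M) : 0 ≤ normSq g T x := ns_nn hg x (T x)

/-- `|T (X, X)| ≤ |T| |X|²` -/
theorem abs_gq_le (hg : Met g) (T : Fld n M) (X : Fin n → M → ℝ) (x : M) :
    |gq T X X x| ≤ √(normSq g T x) * gq g X X x := by
  have e : ∀ i, ∑ k, up g i k x * fl g X k x = X i x := fun i => congrFun (congrFun (sh_fl hg X) i) x
  have e1 : ∀ S : Fld n M, ∑ i, ∑ j, ∑ k, ∑ l, up g i k x * up g j l x * S x i j *
      (fl g X k x * fl g X l x) = gq S X X x := fun S => by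
    refine Finset.sum_congr rfl fun i _ => Finset.sum_congr rfl fun j _ => ?_
    rw [← e i, ← e j, mul_assoc, Finset.sum_mul_sum, Finset.mul_sum]
    refine Finset.sum_congr rfl fun k _ => ?_
    rw [Finset.mul_sum]
    exact Finset.sum_congr rfl fun l _ => by ring
  have e2 : ∑ i, ∑ j, ∑ k, ∑ l, up g i k x * up g j l x * (fl g X i x * fl g X j x) * T x k l =
      gq T X X x := by
    rw [← e1 T, sum4_comm]
    exact Finset.sum_congr rfl fun i _ => Finset.sum_congr rfl fun j _ =>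
      Finset.sum_congr rfl fun k _ => Finset.sum_congr rfl fun l _ => by
        rw [hg.up_sy k i, hg.up_sy l j]; ring
  have e3 : gq (fun y i j => fl g X i y * fl g X j y) X X x = gq g X X x ^ 2 := by
    rw [gq_eq_ev g, ev, sq, Finset.sum_mul_sum, gq]
    exact Finset.sum_congr rfl fun _ _ => Finset.sum_congr rfl fun _ _ => by ring
  have key : ∀ t : ℝ, 0 ≤ gq g X X x ^ 2 * (t * t) + (2 * gq T X X x) * t + normSq g T x := by
    intro t
    refine (ns_nn hg x fun i j => t * (fl g X i x * fl g X j x) + T x i j).trans_eq ?_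
    rw [← e3, ← e1, two_mul]
    nth_rw 1 [← e1 T]
    rw [← e2, normSq]
    simp only [add_mul, Finset.sum_mul, ← Finset.sum_add_distrib]
    exact Finset.sum_congr rfl fun _ _ => Finset.sum_congr rfl fun _ _ =>
      Finset.sum_congr rfl fun _ _ => Finset.sum_congr rfl fun _ _ => by ring
  have h := discrim_le_zero key
  unfold discrim at h
  refine abs_le_of_sq_le_sq' ?_ (mul_nonneg (Real.sqrt_nonneg _) (gq_nonneg hg X x)) |> abs_le.2
  rw [mul_pow, Real.sq_sqrt (normSq_nonneg hg T x)]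
  nlinarith

/-! ### identities -/

theorem cv_tx (hg : Met g) (hv' : CC ∞ v) (hχ : Smooth χ) (hw : Smooth w) (hw' : Smooth w') :
    CV ∞ (tx g v χ w w') :=
  CV.sub (CV.smul (CD.pow hχ 2) (CV.smul (sm_hv hg hv' hw) (cv_nv hg hw)))
    (CV.smul (sm_hv hg hv' hw') (cv_nv hg hw'))

theorem cc_tv (hg : Met g) (hv' : CC ∞ v) (hχ : Smooth χ) (hw : Smooth w) (hw' : Smooth w') :
    CC ∞ (tv g v χ w w') :=
  (cc_vg hg hv' hw').add (cc_fl (met_g hg hw') (cv_tx hg hv' hχ hw hw'))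

/-- the graph identity with a change of drift -/
theorem gid_fl (hg : Met g) (hv' : CC ∞ v) (hw : Smooth w) (hX : DV X x) :
    Rv (gb g 1 w) (fun i y => vg g v w i y + fl (gb g 1 w) X i y) x =
      Rv g v x + hv g v w x ^ 2 + a2 g w x + ip (gb g 1 w) (lw g w) (lw g w) x +
        2 * dn g w (hv g v w) x + 2 * Dv g v X x - gq (gb g 1 w) X X x := by
  have hg' := met_g hg hw
  rw [Rv_add hg' (dV_sh hg' (cc_vg hg hv' hw) x) (by rwa [sh_fl hg']), sh_fl hg', iv_fl hg',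
    Dv_g hg hw hX, gid hg hv' hw]

theorem Dv_HN (hg : Met g) (hv' : CC ∞ v) (hw : Smooth w) (x : M) :
    Dv g v (fun i y => hv g v w y * nv g w i y) x = hv g v w x ^ 2 + dn g w (hv g v w) x := by
  rw [Dv_smul hg ((sm_hv hg hv' hw).diff x) (dV_nv hg (hw.c2 x)), ev_df_nv hg, sq]; rfl

theorem Rv_tv (hg : Met g) (hv' : CC ∞ v) (hχ : Smooth χ) (hw : Smooth w) (hw' : Smooth w')
    (x : M) : Rv (gb g 1 w') (tv g v χ w w') x =
      Rv g v x + χ x ^ 2 * (hv g v w x ^ 2 + 2 * dn g w (hv g v w) x) +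
        (χ x ^ 2 * hv g v w x ^ 2 - hv g v w' x ^ 2 + a2 g w' x +
          ip (gb g 1 w') (lw g w') (lw g w') x + 4 * (χ x * hv g v w x * dn g w χ x) -
          gq (gb g 1 w') (tx g v χ w w') (tx g v χ w w') x) := by
  have d1 : DV (fun i y => hv g v w y * nv g w i y) x :=
    DV.smul ((sm_hv hg hv' hw).diff x) (dV_nv hg (hw.c2 x))
  have d2 : DV (fun i y => hv g v w' y * nv g w' i y) x :=
    DV.smul ((sm_hv hg hv' hw').diff x) (dV_nv hg (hw'.c2 x))
  have d3 : DAt (fun y => χ y ^ 2) x := (hχ.diff x).pow 2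
  have e1 : ev (df fun y => χ y ^ 2) (fun i y => hv g v w y * nv g w i y) x =
      2 * (χ x * hv g v w x * dn g w χ x) := by
    rw [ev_lin' (s := hv g v w x) (t := 0) (X := nv g w) (Y := nv g w) (by simp), ev_df_nv hg,
      dn_comp (χ := fun t => t ^ 2) (hasDerivAt_pow 2 _) (hχ.diff x)]
    norm_num; ring
  have e2 : Dv g v (tx g v χ w w') x = χ x ^ 2 * (hv g v w x ^ 2 + dn g w (hv g v w) x) +
      2 * (χ x * hv g v w x * dn g w χ x) - (hv g v w' x ^ 2 + dn g w' (hv g v w') x) := by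
    unfold tx
    rw [Dv_sub hg (DV.smul d3 d1) d2, Dv_smul hg d3 d1, e1, Dv_HN hg hv' hw, Dv_HN hg hv' hw']
  unfold tv
  rw [gid_fl hg hv' hw' ((cv_tx hg hv' hχ hw hw').dv (by simp) x), e2]
  ring

theorem pd_ww (hg : Met g) (hw : Smooth w) (j : Fin n) (x : M) :
    pd j (ww g 1 w) x = ∑ i, hess g w x j i * nv g w i x := by
  have h0 := (w_pos hg w x).ne'
  have e : (fun y => ww g 1 w y ^ 2) = fun y => 1 + ip g w w y := funext (w_sq hg w)
  have h1 := pd_pow ((sm_w hg hw).diff x) 2 j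
  rw [e, pd_const_add, hg.pd_ip (hw.c2 x) (hw.c2 x)] at h1
  simp only [nv, ← mul_div_assoc, ← Finset.sum_div]
  field_simp
  norm_num at h1
  linarith

/-- `Δ w = W H + Hess w (N, N)` -/
theorem Lv_eq_hv (hg : Met g) (v : Fin n → M → ℝ) (hw : Smooth w) (x : M) :
    Lv g v w x = ww g 1 w x * hv g v w x + gq (hess g w) (nv g w) (nv g w) x := by
  have e : gr g w = fun i y => ww g 1 w y * nv g w i y := by
    funext i y; rw [nv, mul_div_cancel₀ _ (w_pos hg w y).ne']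
  rw [Lv_eq_Dv g v (hw.c2 x), e, Dv_smul hg ((sm_w hg hw).diff x) (dV_nv hg (hw.c2 x)), gq_eq_ev]
  simp only [ev, df, pd_ww hg hw, fl, hv]

theorem abs_hess_le (hg : Met g) (hw : Smooth w) (X : Fin n → M → ℝ) (x : M) :
    |gq (hess g w) X X x| ≤ ww g 1 w x * (√(a2 g w x) * gq (gb g 1 w) X X x) := by
  have h0 := w_pos hg w x
  have h := abs_gq_le (met_g hg hw) (fun y i j => hess g w y i j / ww g 1 w y) X x
  have e : gq (hess g w) X X x =
      ww g 1 w x * gq (fun y i j => hess g w y i j / ww g 1 w y) X X x := by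
    simp only [gq, Finset.mul_sum]
    exact Finset.sum_congr rfl fun _ _ => Finset.sum_congr rfl fun _ _ => by field_simp
  rw [e, abs_mul, abs_of_pos h0]
  exact mul_le_mul_of_nonneg_left h h0.le

section cut

variable {c : ℝ} (hg : Met g) (hχ : Smooth χ) (hw : Smooth w)
  (e : w' =ᶠ[𝓝 x] fun y => c + χ y * (w y - c))
include hχ hw e

theorem pd_cut (i : Fin n) : pd i w' x = χ x * pd i w x + (w x - c) * pd i χ x := by
  rw [pd_congr e, pd_const_add, pd_mul (hχ.diff x) ((hw.diff x).sub_const c), pd_sub_const]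
  ring

theorem hess_cut (X : Fin n → M → ℝ) : gq (hess g w') X X x = χ x * gq (hess g w) X X x +
    (w x - c) * gq (hess g χ) X X x + 2 * (ev (df χ) X x * ev (df w) X x) := by
  have h : ∀ i j, hess g w' x i j = χ x * hess g w x i j + (w x - c) * hess g χ x i j +
      (pd i χ x * pd j w x + pd i w x * pd j χ x) := fun i j => by
    rw [hess_congr e]
    simp only [add_comm c]
    rw [hess_add_const, hess_mul (hχ.c2 x) ((hw.c2 x).sub cAt_const), hess_sub_const, pd_sub_const,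
      pd_sub_const]
  rw [two_mul]
  nth_rw 2 [mul_comm (ev (df χ) X x)]
  simp only [gq, h, ev, df, Finset.sum_mul_sum]
  simp only [Finset.mul_sum, ← Finset.sum_add_distrib]
  exact Finset.sum_congr rfl fun _ _ => Finset.sum_congr rfl fun _ _ => by ring

include hg

theorem Lv_cut (v : Fin n → M → ℝ) :
    Lv g v w' x = χ x * Lv g v w x + (w x - c) * Lv g v χ x + 2 * ip g w χ x := by
  have h : lap g w' x = χ x * lap g w x + (w x - c) * lap g χ x + 2 * ip g w χ x := by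
    rw [lap_congr e]
    simp only [add_comm c]
    rw [lap_add_const, hg.lap_mul (hχ.c2 x) ((hw.c2 x).sub cAt_const)]
    simp only [sub_eq_add_neg, lap_add_const]
    rw [hg.ip_sy, ip_of_pd (s := 1) (t := 1) (u' := w) (v' := χ)
      (fun i => by rw [pd_add_const, one_mul]) fun i => (one_mul _).symm]
    ring
  rw [Lv, Lv, Lv, h, iv_lin' (a := df w') (b := df w) (c := df χ) (pd_cut hχ hw e)]
  ring

theorem gn_cut : gn g w' x ≤ |χ x| * gn g w x + |w x - c| * gn g χ x := by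
  have h := hg.gn_add_le (x := x) (u := w') (u₁ := fun y => χ x * w y)
    (u₂ := fun y => (w x - c) * χ y) fun i => by rw [pd_cut hχ hw e, pd_const_mul, pd_const_mul]
  rwa [gn_of_pd (u' := w) (s := χ x) fun i => pd_const_mul _ i,
    gn_of_pd (u' := χ) (s := w x - c) fun i => pd_const_mul _ i] at h

theorem hv_cut (v : Fin n → M → ℝ) (hw' : Smooth w') :
    ww g 1 w' x * (hv g v w' x - χ x * hv g v w x) =
      χ x * hv g v w x * (ww g 1 w x - ww g 1 w' x) + gq (hess g w') (nv g w) (nv g w) x -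
        gq (hess g w') (nv g w') (nv g w') x - (w x - c) * gq (hess g χ) (nv g w) (nv g w) x -
        2 * (dn g w χ x * dn g w w x) + (w x - c) * Lv g v χ x + 2 * ip g w χ x := by
  have h1 := Lv_cut hg hχ hw e v
  rw [Lv_eq_hv hg v hw, Lv_eq_hv hg v hw'] at h1
  rw [hess_cut hχ hw e (nv g w), ev_df_nv hg, ev_df_nv hg]
  linarith

end cut

/-! ### estimates -/

theorem fin_alg {η a B D H H' k s q L : ℝ} (h0 : 0 ≤ η) (h1 : η ≤ 1 / 4) (hD : 0 ≤ D)
    (hH : |H| ≤ B) (k0 : 0 ≤ k) (k1 : k ≤ 1) (hd : |H' - k * H| ≤ η * (a + D)) (hs : |s| ≤ η)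
    (hq : q ≤ η * (H ^ 2 + H' ^ 2)) (hL : 0 ≤ L) :
    -(η * (10 * B ^ 2 + 4 * B * D + 4 * B + D ^ 2)) ≤
      k ^ 2 * H ^ 2 - H' ^ 2 + a ^ 2 + L + 4 * (k * H * s) - q := by
  obtain ⟨d, rfl⟩ : ∃ d, H' = k * H + d := ⟨H' - k * H, by ring⟩
  rw [add_sub_cancel_left] at hd
  have hB : 0 ≤ B := (abs_nonneg _).trans hH
  have p1 : |k * H| ≤ B := by
    rw [abs_mul, abs_of_nonneg k0]; nlinarith [abs_nonneg H]
  have p2 : |k * H * s| ≤ B * η := by
    rw [abs_mul]; exact mul_le_mul p1 hs (abs_nonneg _) hB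
  have p3 : |k * H * d| ≤ B * (η * (a + D)) := by
    rw [abs_mul]; exact mul_le_mul p1 hd (abs_nonneg _) hB
  have p4 : d ^ 2 ≤ (η * (a + D)) ^ 2 := sq_le_sq' (abs_le.1 hd).1 (abs_le.1 hd).2
  have p5 : H ^ 2 ≤ B ^ 2 := sq_le_sq' (abs_le.1 hH).1 (abs_le.1 hH).2
  have p6 : (k * H) ^ 2 ≤ B ^ 2 := sq_le_sq' (abs_le.1 p1).1 (abs_le.1 p1).2
  have p7 : (η * (a + D)) ^ 2 ≤ a ^ 2 / 8 + η * D ^ 2 / 2 := by
    have : η ^ 2 ≤ η / 4 := by nlinarith
    have : (a + D) ^ 2 ≤ 2 * a ^ 2 + 2 * D ^ 2 := by nlinarith [sq_nonneg (a - D)]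
    rw [mul_pow]
    nlinarith [sq_nonneg a, sq_nonneg D, sq_nonneg η]
  have p8 : B * (η * (a + D)) ≤ a ^ 2 / 8 + η * B ^ 2 + η * (B * D) := by
    have : η ^ 2 ≤ η / 4 := by nlinarith
    nlinarith [sq_nonneg (a - 4 * η * B), sq_nonneg B]
  have p9 : 2 * (k * H * d) + d ^ 2 ≤ a ^ 2 / 2 + η * (2 * B ^ 2 + 2 * (B * D) + D ^ 2 / 2) := by
    nlinarith [(abs_le.1 p3).2, sq_nonneg a]
  have p10 : η * (2 * (k * H * d) + d ^ 2) ≤
      1 / 4 * (a ^ 2 / 2 + η * (2 * B ^ 2 + 2 * (B * D) + D ^ 2 / 2)) :=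
    (mul_le_mul_of_nonneg_left p9 h0).trans (mul_le_mul_of_nonneg_right h1 (by positivity))
  have p11 := mul_le_mul_of_nonneg_left p5 h0
  have p12 := mul_le_mul_of_nonneg_left p6 h0
  have p13 : 0 ≤ η * B ^ 2 := by positivity
  have p14 : 0 ≤ η * (B * D) := by positivity
  have p15 : 0 ≤ η * D ^ 2 := by positivity
  nlinarith [(abs_le.1 p2).1, sq_nonneg a]

theorem gq_nv_le (hg : Met g) {δ : ℝ} (h : gn g w x ≤ δ) : gq g (nv g w) (nv g w) x ≤ δ ^ 2 := by
  rw [gq_nv hg, ← hg.gn_sq]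
  exact (div_le_self (sq_nonneg _) (one_le_pow₀ (one_le_ww hg 1 w x))).trans
    (pow_le_pow_left₀ (gn_nonneg _ _ _) h 2)

theorem gq_gb_le (hg : Met g) {η : ℝ} (h : gn g w x ≤ η) (h' : gn g w' x ≤ η) (h1 : η ≤ 1 / 4) :
    gq (gb g 1 w') (nv g w) (nv g w) x ≤ η / 2 := by
  have h2 := (abs_dn_le hg w w' x).trans h'
  have h3 := sq_le_sq' (abs_le.1 h2).1 (abs_le.1 h2).2
  rw [gq_gb, ev_df_nv hg]
  nlinarith [gq_nv_le hg h, (gn_nonneg _ _ _).trans h]

theorem tail_est (hg : Met g) (hv' : CC ∞ v) (hχ : Smooth χ) (hw : Smooth w) (hw' : Smooth w')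
    {c δ K B : ℝ} (e : w' =ᶠ[𝓝 x] fun y => c + χ y * (w y - c)) (k0 : 0 ≤ χ x) (k1 : χ x ≤ 1)
    (K1 : gn g χ x ≤ K) (K2 : |Lv g v χ x| ≤ K) (K3 : √(normSq g (hess g χ) x) ≤ K)
    (d1 : |w x - c| ≤ δ) (d2 : gn g w x ≤ δ) (hH : |hv g v w x| ≤ B) (h1 : δ * (1 + K) ≤ 1 / 4) :
    Rv g v x + χ x ^ 2 * (hv g v w x ^ 2 + 2 * dn g w (hv g v w) x) -
      δ * (1 + K) * (10 * B ^ 2 + 4 * B * (B + 6) + 4 * B + (B + 6) ^ 2) ≤
      Rv (gb g 1 w') (tv g v χ w w') x := by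
  have hδ : 0 ≤ δ := (abs_nonneg _).trans d1
  have hK : 0 ≤ K := (abs_nonneg _).trans K2
  have hB : 0 ≤ B := (abs_nonneg _).trans hH
  have hδK : 0 ≤ δ * K := mul_nonneg hδ hK
  set η := δ * (1 + K) with hη
  have e1 : δ ≤ η := by nlinarith
  have e2 : δ * K ≤ η := by nlinarith
  have h0 : 0 ≤ η := hδ.trans e1
  have g1 : gn g w' x ≤ η := by
    refine (gn_cut hg hχ hw e).trans ?_
    have := mul_le_mul d1 K1 (gn_nonneg _ _ _) hδ
    rw [abs_of_nonneg k0]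
    nlinarith [gn_nonneg g w x]
  have q1 := gq_gb_le hg (d2.trans e1) g1 h1
  have q2 := gq_gb_le hg g1 g1 h1
  have W1 := one_le_ww hg 1 w x
  have W2 := one_le_ww hg 1 w' x
  have W3 := w_le hg w x
  have W4 := w_le hg w' x
  have i1 : |ip g w χ x| ≤ η :=
    ((hg.abs_ip_le w χ x).trans (mul_le_mul d2 K1 (gn_nonneg _ _ _) hδ)).trans e2
  have i2 : |dn g w χ x| ≤ η := by
    rw [dn, abs_div, abs_of_pos (w_pos hg w x)]
    exact (div_le_self (abs_nonneg _) W1).trans i1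
  have hd : |hv g v w' x - χ x * hv g v w x| ≤ η * (√(a2 g w' x) + (B + 6)) := by
    have ha := Real.sqrt_nonneg (a2 g w' x)
    have t0 := hv_cut hg hχ hw e v hw'
    have t1 : |χ x * hv g v w x * (ww g 1 w x - ww g 1 w' x)| ≤ B * η := by
      rw [abs_mul, abs_mul, abs_of_nonneg k0]
      refine mul_le_mul ((mul_le_of_le_one_left (abs_nonneg _) k1).trans hH)
        (abs_le.2 ⟨by linarith, by linarith⟩) (abs_nonneg _) hB
    have t2 : ∀ X, gq (gb g 1 w') X X x ≤ η / 2 →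
        |gq (hess g w') X X x| ≤ ww g 1 w' x * (√(a2 g w' x) * (η / 2)) := fun X hX =>
      (abs_hess_le hg hw' X x).trans
        (mul_le_mul_of_nonneg_left (mul_le_mul_of_nonneg_left hX ha) (w_pos hg w' x).le)
    have t3 : |(w x - c) * gq (hess g χ) (nv g w) (nv g w) x| ≤ η := by
      rw [abs_mul]
      refine (mul_le_mul d1 ((abs_gq_le hg _ _ x).trans ?_) (abs_nonneg _) hδ).trans e2
      refine (mul_le_mul K3 (gq_nv_le hg d2) (gq_nonneg hg _ x) hK).trans ?_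
      exact mul_le_of_le_one_right hK (by nlinarith)
    have t4 : |dn g w χ x * dn g w w x| ≤ η := by
      rw [abs_mul]
      exact (mul_le_of_le_one_right (abs_nonneg _) (by linarith [abs_dn_le hg w w x])).trans i2
    have t5 : |(w x - c) * Lv g v χ x| ≤ η := by
      rw [abs_mul]; exact (mul_le_mul d1 K2 (abs_nonneg _) hδ).trans e2
    have t6 : η * (B + 6) ≤ ww g 1 w' x * (η * (B + 6)) := le_mul_of_one_le_left (by positivity) W2
    rw [← mul_le_mul_iff_right₀ (w_pos hg w' x), ← abs_of_pos (w_pos hg w' x), ← abs_mul, t0,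
      abs_of_pos (w_pos hg w' x), abs_le]
    obtain ⟨u1, u2⟩ := abs_le.1 (t2 _ q1)
    obtain ⟨u3, u4⟩ := abs_le.1 (t2 _ q2)
    rw [abs_le] at t1 t3 t4 t5 i1
    constructor
    · linarith only [u1, u4, t1.1, t3.2, t4.2, t5.1, i1.1, t6]
    · linarith only [u2, u3, t1.2, t3.1, t4.1, t5.2, i1.2, t6]
  have hq : gq (gb g 1 w') (tx g v χ w w') (tx g v χ w w') x ≤
      η * (hv g v w x ^ 2 + hv g v w' x ^ 2) := by
    refine (gq_sub_le (met_g hg hw') (s := χ x ^ 2 * hv g v w x) (t := hv g v w' x)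
      (X := nv g w) (Y := nv g w') fun i => by rw [tx, mul_assoc]).trans ?_
    have r1 : (χ x ^ 2 * hv g v w x) ^ 2 ≤ hv g v w x ^ 2 := by
      rw [mul_pow]
      exact mul_le_of_le_one_left (sq_nonneg _) (pow_le_one₀ (sq_nonneg _) (pow_le_one₀ k0 k1))
    have r2 := mul_le_mul r1 q1 (gq_nonneg (met_g hg hw') _ x) (sq_nonneg _)
    have r3 := mul_le_mul_of_nonneg_left q2 (sq_nonneg (hv g v w' x))
    linarith
  have := fin_alg h0 h1 (by positivity) hH k0 k1 hd i2 hq ((met_g hg hw').ip_nonneg (lw g w') x)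
  rw [Real.sq_sqrt (a2_nonneg hg hw' x)] at this
  rw [Rv_tv hg hv' hχ hw hw']
  linarith

/-- **the tail, pointwise form** -/
theorem tail_pt (hg : Met g) (hv' : CC ∞ v) (hχ : Smooth χ) (k : ∀ x, 0 ≤ χ x ∧ χ x ≤ 1)
    {T : Set M} (hT : IsCompact T) (B : ℝ) {ε : ℝ} (hε : 0 < ε) : ∃ δ > 0, ∀ x ∈ T,
    ∀ (w w' : M → ℝ) (c : ℝ), Smooth w → Smooth w' →
      (w' =ᶠ[𝓝 x] fun y => c + χ y * (w y - c)) → |w x - c| ≤ δ → gn g w x ≤ δ →
      |hv g v w x| ≤ B → Rv g v x + χ x ^ 2 * (hv g v w x ^ 2 + 2 * dn g w (hv g v w) x) - ε ≤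
        Rv (gb g 1 w') (tv g v χ w w') x := by
  have c1 : Continuous fun x => gn g χ x + |Lv g v χ x| + √(normSq g (hess g χ) x) :=
    ((hg.cont_gn hχ.one).add (sm_Lv hg hv' hχ).cont.abs).add
      (hg.sm_normSq (hg.sm_hess hχ)).cont.sqrt
  obtain ⟨K, hK⟩ := hT.exists_bound_of_continuousOn c1.continuousOn
  set C := 10 * |B| ^ 2 + 4 * |B| * (|B| + 6) + 4 * |B| + (|B| + 6) ^ 2
  have hC : 0 < C := by positivity
  have hK1 : 0 < 1 + |K| := by positivity
  refine ⟨min (1 / 4) (ε / C) / (1 + |K|), by positivity, fun x hx w w' c hw hw' e d1 d2 hH => ?_⟩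
  have b := ((le_abs_self _).trans (hK x hx)).trans (le_abs_self K)
  have b1 := gn_nonneg g χ x
  have b2 := abs_nonneg (Lv g v χ x)
  have b3 := Real.sqrt_nonneg (normSq g (hess g χ) x)
  have h := tail_est hg hv' hχ hw hw' (K := |K|) e (k x).1 (k x).2 (by linarith) (by linarith)
    (by linarith) d1 d2 (hH.trans (le_abs_self B))
    (by rw [div_mul_cancel₀ _ hK1.ne']; exact min_le_left _ _)
  rw [div_mul_cancel₀ _ hK1.ne'] at h
  have := (le_div_iff₀ hC).1 (min_le_right (1 / 4) (ε / C))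
  linarith

/-! ### locality -/

theorem hv_congr (e : w =ᶠ[𝓝 x] w') : hv g v w =ᶠ[𝓝 x] hv g v w' :=
  e.eventuallyEq_nhds.mono fun _ k => Dv_congr (nv_congr k)

theorem vg_congr (e : w =ᶠ[𝓝 x] w') (i : Fin n) : vg g v w i =ᶠ[𝓝 x] vg g v w' i :=
  (ww_congr (g := g) e).eventuallyEq_nhds.mono fun y k => by
    rw [vg, vg, pd_congr (f := lw g w) (h := lw g w') (k.mono fun z hz => by rw [lw, lw, hz])]

theorem Rv_of_ev {g' : Fld n M} {v' : Fin n → M → ℝ} (e : g =ᶠ[𝓝 x] g')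
    (e' : ∀ i, v i =ᶠ[𝓝 x] v' i) : Rv g v x = Rv g' v' x := by
  have h : ∀ i, sh g v' i =ᶠ[𝓝 x] sh g' v' i := fun i =>
    e.mono fun y hy => by simp only [sh, up_of_eq hy]
  rw [Rv_congr e', Rv, Rv, scal_of_ev e, dv_of_ev e h]
  simp only [iv, up_of_eq e.self_of_nhds]

/-- where `χ = 1` nothing changes -/
theorem tv_one (k : χ =ᶠ[𝓝 x] fun _ => 1) (e : w' =ᶠ[𝓝 x] w) (i : Fin n) :
    tv g v χ w w' i =ᶠ[𝓝 x] vg g v w i := by
  filter_upwards [k, vg_congr (g := g) (v := v) e i, hv_congr (g := g) (v := v) e,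
    eventually_all.2 (nv_congr (g := g) e)] with y h1 h2 h3 h4
  simp [tv, fl, tx, h1, h2, h3, h4]

theorem gb_const {c : ℝ} (e : w' =ᶠ[𝓝 x] fun _ => c) : gb g 1 w' =ᶠ[𝓝 x] g :=
  (gb_congr e).trans (.of_forall fun y => by funext i j; simp [gb, pd_const])

/-- where `χ = 0` the state is the old one -/
theorem tv_zero {c : ℝ} (k : χ =ᶠ[𝓝 x] fun _ => 0) (e : w' =ᶠ[𝓝 x] fun _ => c) (i : Fin n) :
    tv g v χ w w' i =ᶠ[𝓝 x] v i := by
  have h0 : lw g (fun _ => c) = fun _ => 0 := by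
    funext y; simp [lw, ww, ip_const_left]
  filter_upwards [k, vg_congr (g := g) (v := v) e i,
    eventually_all.2 (nv_congr (g := g) e)] with y h1 h2 h4
  simp only [tv, fl, tx, h1, h2, h4]
  simp [nv, gr, pd_const, vg, h0]

/-- **the tail, global form**: `c` is locally constant where `χ` is not locally `1` -/
theorem tail (hg : Met g) (hv' : CC ∞ v) (hχ : Smooth χ) (k : ∀ x, 0 ≤ χ x ∧ χ x ≤ 1)
    {T : Set M} (hT : IsCompact T)
    (h01 : ∀ x ∉ T, (χ =ᶠ[𝓝 x] fun _ => 0) ∨ χ =ᶠ[𝓝 x] fun _ => 1) (B : ℝ) {ε : ℝ} (hε : 0 < ε) :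
    ∃ δ > 0, ∀ w c : M → ℝ, Smooth w →
      (∀ x, (χ =ᶠ[𝓝 x] fun _ => 1) ∨ c =ᶠ[𝓝 x] fun _ => c x) →
      (∀ x ∈ T, |w x - c x| ≤ δ ∧ gn g w x ≤ δ ∧ |hv g v w x| ≤ B) →
      Smooth (fun y => c y + χ y * (w y - c y)) ∧
      CC ∞ (tv g v χ w fun y => c y + χ y * (w y - c y)) ∧
      ∀ x, Rv g v x + χ x ^ 2 * (hv g v w x ^ 2 + 2 * dn g w (hv g v w) x) - ε ≤
        Rv (gb g 1 fun y => c y + χ y * (w y - c y))
          (tv g v χ w fun y => c y + χ y * (w y - c y)) x := by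
  obtain ⟨δ, hδ, h⟩ := tail_pt hg hv' hχ k hT B hε
  refine ⟨δ, hδ, fun w c hw hc hb => ?_⟩
  set w' : M → ℝ := fun y => c y + χ y * (w y - c y) with hw'
  have e1 : ∀ x, (χ =ᶠ[𝓝 x] fun _ => 1) → w' =ᶠ[𝓝 x] w := fun x k1 =>
    k1.mono fun y hy => by simp [hw', hy]
  have e2 : ∀ x, (c =ᶠ[𝓝 x] fun _ => c x) → w' =ᶠ[𝓝 x] fun y => c x + χ y * (w y - c x) :=
    fun x k1 => k1.mono fun y hy => by simp only [hw', hy]
  have s : Smooth w' := cd_of_cAt le_rfl fun x => by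
    rcases hc x with k1 | k1
    · exact (CD.contDiffAt hw).congr_of_eventuallyEq (e1 x k1)
    · exact (CD.contDiffAt (CD.add cd_const (CD.mul hχ (CD.sub hw cd_const)))).congr_of_eventuallyEq
        (e2 x k1)
  have one : ∀ x, (χ =ᶠ[𝓝 x] fun _ => 1) →
      Rv g v x + χ x ^ 2 * (hv g v w x ^ 2 + 2 * dn g w (hv g v w) x) - ε ≤
        Rv (gb g 1 w') (tv g v χ w w') x := fun x k1 => by
    rw [Rv_of_ev (gb_congr (e1 x k1)) (tv_one k1 (e1 x k1)), k1.self_of_nhds]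
    linarith [gid_ge hg hv' hw x]
  refine ⟨s, cc_tv hg hv' hχ hw s, fun x => ?_⟩
  rcases hc x with k1 | k1
  · exact one x k1
  by_cases hx : x ∈ T
  · exact h x hx w w' (c x) hw s (e2 x k1) (hb x hx).1 (hb x hx).2.1 (hb x hx).2.2
  rcases h01 x hx with k0 | k0
  · have e3 : w' =ᶠ[𝓝 x] fun _ => c x := (e2 x k1).trans (k0.mono fun y hy => by simp [hy])
    rw [Rv_of_ev (gb_const e3) (tv_zero k0 e3), k0.self_of_nhds]
    linarith
  · exact one x k0

/-- `1 - 1 / W` small gives a small gradient -/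
theorem gn_le_of_u (hg : Met g) {δ : ℝ} (h0 : 0 ≤ δ) (h1 : δ ≤ 1)
    (h : 1 - (ww g 1 w x)⁻¹ ≤ δ ^ 2 / 8) : gn g w x ≤ δ := by
  have W := w_pos hg w x
  have W1 := one_le_ww hg 1 w x
  have e := w_sq hg w x
  rw [← hg.gn_sq] at e
  have h2 : ww g 1 w x - 1 ≤ δ ^ 2 / 8 * ww g 1 w x := by
    have := mul_le_mul_of_nonneg_right h W.le
    rwa [sub_mul, one_mul, inv_mul_cancel₀ W.ne'] at this
  have h3 : δ ^ 2 ≤ 1 := pow_le_one₀ h0 h1
  have h4 : ww g 1 w x ≤ 2 := by nlinarith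
  exact (abs_le_of_sq_le_sq' (by nlinarith) h0).2

end Vale.Agent.P210T
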