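import Vale.Agent.P366D.Defs
import Vale.Agent.P366M.Basic

/-!
# P210T: general position: the image of a small set misses a ball
-/

open MeasureTheory Metric Filter Topology Set Module
open scoped ContDiff ENNReal NNReal
open Vale.Agent.P366.Stmt Vale.Agent.P366M Vale.Agent.P366D

noncomputable section

namespace Vale.Agent.P210T

variable {n : ℕ} {F : Type} [NormedAddCommGroup F] [NormedSpace ℝ F] [FiniteDimensional ℝ F]

theorem null_img [MeasurableSpace F] [BorelSpace F] (μ : Measure F) [μ.IsAddHaarMeasure] {d : ℝ}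
    (hd : d ≤ finrank ℝ F) {A K : Set (E n)} (hA : Null d A) (hK : IsCompact K) {φ : E n → F}
    {L : ℝ≥0} (hL : LipschitzOnWith L φ K) : μ (φ '' (A ∩ K)) = 0 := by
  have hB : μ (ball 0 1) ≠ ⊤ := measure_ball_lt_top.ne
  set C : ℝ := (2 * L) ^ finrank ℝ F * (μ (ball 0 1)).toReal with hC
  have C0 : 0 ≤ C := by positivity
  refine le_antisymm (ENNReal.le_of_forall_pos_le_add fun ε ε0 _ => ?_) bot_le
  obtain ⟨s, h1, h2, h3⟩ := hA K hK (min 1 (ε / (C + 1))) (by positivity)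
  have k : ∀ p ∈ s, μ (φ '' (K ∩ ball p.1 p.2)) ≤ ENNReal.ofReal (C * p.2 ^ d) := fun p hp => by
    rcases (K ∩ ball p.1 p.2).eq_empty_or_nonempty with h | ⟨y, y1, y2⟩
    · simp [h]
    have r0 := (h1 p hp).1
    have : φ '' (K ∩ ball p.1 p.2) ⊆ closedBall (φ y) (2 * L * p.2) := by
      rintro _ ⟨z, ⟨z1, z2⟩, rfl⟩
      have := dist_triangle_right z y p.1
      rw [mem_ball] at y2 z2
      exact (hL.dist_le_mul z z1 y y1).trans (by nlinarith [L.coe_nonneg])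
    refine (measure_mono this).trans ?_
    rw [μ.addHaar_closedBall _ (by positivity), ← ENNReal.ofReal_toReal hB,
      ← ENNReal.ofReal_mul (by positivity), mul_pow, mul_right_comm]
    refine ENNReal.ofReal_le_ofReal (mul_le_mul_of_nonneg_left ?_ C0)
    rw [← Real.rpow_natCast]
    exact Real.rpow_le_rpow_of_exponent_ge r0 ((h1 p hp).2.trans (min_le_left _ _)) hd
  have : φ '' (A ∩ K) ⊆ ⋃ p ∈ s, φ '' (K ∩ ball p.1 p.2) := by
    rintro _ ⟨z, hz, rfl⟩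
    obtain ⟨p, hp, h⟩ := mem_iUnion₂.1 (h2 hz)
    exact mem_iUnion₂.2 ⟨p, hp, z, ⟨hz.2, h⟩, rfl⟩
  refine (measure_mono this).trans ((measure_biUnion_finset_le _ _).trans
    ((Finset.sum_le_sum k).trans ?_))
  rw [← ENNReal.ofReal_sum_of_nonneg fun p hp => by have := (h1 p hp).1; positivity,
    ← Finset.mul_sum, zero_add, ← ENNReal.ofReal_coe_nnreal]
  refine ENNReal.ofReal_le_ofReal ((mul_le_mul_of_nonneg_left (h3.trans (min_le_right _ _))
    C0).trans ?_)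
  rw [← mul_div_assoc, div_le_iff₀ (by positivity)]
  nlinarith [ε.coe_nonneg]

variable {M : Type} [Mf0 n M] {S : Set M} {d : ℝ}

theorem null_img_mf [MeasurableSpace F] [BorelSpace F] (μ : Measure F) [μ.IsAddHaarMeasure]
    (hd : d ≤ finrank ℝ F) (hS : ∀ e ∈ At M, Null d (e.symm ⁻¹' S)) {b : M → F}
    (hb : ∀ x ∈ S, CAt 1 b x) : μ (b '' S) = 0 := by
  have : ∀ x ∈ S, ∃ U ∈ 𝓝[S] x, μ (b '' U) = 0 := fun x hx => by
    obtain ⟨L, t, ht, hL⟩ := (hb x hx).exists_lipschitzOnWith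
    obtain ⟨r, r0, hr⟩ := nhds_basis_closedBall.mem_iff.1 ht
    refine ⟨S ∩ (ch x).symm '' closedBall (pt x) r, inter_mem_nhdsWithin _ ?_, measure_mono_null ?_
      (null_img μ hd (hS _ (ch_mem x)) (isCompact_closedBall (pt x) r) (hL.mono hr))⟩
    · have := (openEmb_symm (ch_mem x)).image_mem_nhds.2 (closedBall_mem_nhds (pt x) r0)
      rwa [symm_pt] at this
    · rintro _ ⟨_, ⟨h1, y, h2, rfl⟩, rfl⟩
      exact ⟨y, ⟨h1, h2⟩, rfl⟩
  choose! U h1 h2 using this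
  obtain ⟨s, s1, s2, s3⟩ := TopologicalSpace.countable_cover_nhdsWithin h1
  refine measure_mono_null (image_mono s3) ?_
  rw [image_iUnion₂]
  exact (measure_biUnion_null_iff s2).2 fun x hx => h2 x (s1 hx)

/-- **GP**: general position -/
theorem gp (hd : d ≤ finrank ℝ F) (hc : IsCompact S) (hS : ∀ e ∈ At M, Null d (e.symm ⁻¹' S))
    {b : M → F} (hb : ∀ x ∈ S, CAt 1 b x) {U : Set F} (hU : IsOpen U) (h0 : U.Nonempty) :
    ∃ b₀ ∈ U, ∃ δ > (0 : ℝ), ∀ x ∈ S, δ < ‖b x - b₀‖ := by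
  borelize F
  have h := null_img_mf Measure.addHaar hd hS hb
  obtain ⟨b₀, b1, b2⟩ : ∃ b₀ ∈ U, b₀ ∉ b '' S := by
    by_contra! k
    exact hU.measure_ne_zero _ h0 (measure_mono_null k h)
  have c : IsCompact (b '' S) := hc.image_of_continuousOn fun x hx =>
    (contAt_of_loc (hb x hx).continuousAt).continuousWithinAt
  obtain ⟨δ, δ0, k⟩ := nhds_basis_closedBall.mem_iff.1 (c.isClosed.isOpen_compl.mem_nhds b2)
  exact ⟨b₀, b1, δ, δ0, fun x hx => not_le.1 fun l => k (mem_closedBall_iff_norm.2 l) ⟨x, hx, rfl⟩⟩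

/-- **GP** in coordinates -/
theorem gp' {m : ℕ} (hd : d ≤ m) (hc : IsCompact S) (hS : ∀ e ∈ At M, Null d (e.symm ⁻¹' S))
    {b : Fin m → M → ℝ} (hb : ∀ i, P366M.Smooth (b i)) {r : ℝ} (hr : 0 < r) :
    ∃ b₀ : Fin m → ℝ, ∑ i, b₀ i ^ 2 < r ^ 2 ∧ ∃ δ > (0 : ℝ), ∀ x ∈ S,
      δ ^ 2 < ∑ i, (b i x - b₀ i) ^ 2 := by
  obtain ⟨b₀, b1, δ, δ0, k⟩ := gp (F := E m) (b := fun x => WithLp.toLp 2 fun i => b i x)
    (by simpa using hd) hc hS (fun x _ => contDiffAt_euclidean.2 fun i =>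
      ((hb i).contDiffAt (x := x)).of_le one_le_oo) isOpen_ball ⟨0, mem_ball_self hr⟩
  refine ⟨b₀, ?_, δ, δ0, fun x hx => ?_⟩
  · have := pow_lt_pow_left₀ (mem_ball_zero_iff.1 b1) (norm_nonneg _) two_ne_zero
    rwa [EuclideanSpace.real_norm_sq_eq] at this
  · have := pow_lt_pow_left₀ (k x hx) δ0.le two_ne_zero
    rwa [EuclideanSpace.real_norm_sq_eq] at this

end Vale.Agent.P210T
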