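import Vale.Agent.P210T.Tail
import Vale.Agent.P210Y.Decay
import Vale.Agent.P210F.Sta

/-!
# P210T: the tail with a second cutoff; decay of the mean curvature
-/

open Filter Topology Set
open scoped ContDiff
open Vale.Agent.P366M Vale.Agent.P366M.Gr Vale.Agent.P366M.Y.C Vale.Agent.P366M.Y.C.GbH
open Vale.Agent.P210G Vale.Agent.P210Y

noncomputable section

namespace Vale.Agent.P210T

variable {n : ℕ} {M : Type} [Mf0 n M]

/-- the drift `vg - κ H' N'` on the graph of `w'` -/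
def kv (g : Fld n M) (v : Fin n → M → ℝ) (κ w' : M → ℝ) : Fin n → M → ℝ := fun i y =>
  vg g v w' i y + fl (gb g 1 w') (fun j z => -κ z * (hv g v w' z * nv g w' j z)) i y

variable {g : Fld n M} {v : Fin n → M → ℝ} {w w' χ κ : M → ℝ} {x : M} {K O T : Set M}

theorem cv_kx (hg : Met g) (hv' : CC ∞ v) (hκ : Smooth κ) (hw' : Smooth w') :
    CV ∞ fun j z => -κ z * (hv g v w' z * nv g w' j z) :=
  CV.smul (CD.neg hκ) (CV.smul (sm_hv hg hv' hw') (cv_nv hg hw'))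

theorem cc_kv (hg : Met g) (hv' : CC ∞ v) (hκ : Smooth κ) (hw' : Smooth w') : CC ∞ (kv g v κ w') :=
  (cc_vg hg hv' hw').add (cc_fl (met_g hg hw') (cv_kx hg hv' hκ hw'))

omit [Mf0 n M] in
theorem gq_smul {S : Fld n M} {X Y : Fin n → M → ℝ} {s : ℝ} (h : ∀ i, Y i x = s * X i x) :
    gq S Y Y x = s ^ 2 * gq S X X x := by
  simp only [gq, h, Finset.mul_sum]
  exact Finset.sum_congr rfl fun _ _ => Finset.sum_congr rfl fun _ _ => by ring

theorem Rv_kv (hg : Met g) (hv' : CC ∞ v) (hκ : Smooth κ) (hw' : Smooth w') (x : M) :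
    Rv (gb g 1 w') (kv g v κ w') x = κ x * Rv g v x + (1 - κ x) * Rv (gb g 1 w') (vg g v w') x +
      (κ x * (a2 g w' x + ip (gb g 1 w') (lw g w') (lw g w') x) - κ x * hv g v w' x ^ 2 -
        2 * (hv g v w' x * dn g w' κ x) -
        (κ x * hv g v w' x) ^ 2 * gq (gb g 1 w') (nv g w') (nv g w') x) := by
  have d2 : DV (fun i y => hv g v w' y * nv g w' i y) x :=
    DV.smul ((sm_hv hg hv' hw').diff x) (dV_nv hg (hw'.c2 x))
  have e1 : ev (df fun y => -κ y) (fun i y => hv g v w' y * nv g w' i y) x =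
      -(hv g v w' x * dn g w' κ x) := by
    rw [ev_lin' (s := hv g v w' x) (t := 0) (X := nv g w') (Y := nv g w') (by simp), ev_df_nv hg,
      dn_comp (χ := fun t => -t) (hasDerivAt_neg _) (hκ.diff x)]
    ring
  unfold kv
  rw [gid_fl hg hv' hw' ((cv_kx hg hv' hκ hw').dv (by simp) x), Dv_smul hg (hκ.diff x).neg d2, e1,
    Dv_HN hg hv' hw', gid hg hv' hw',
    gq_smul (X := nv g w') (s := -(κ x * hv g v w' x)) fun i => by ring]
  ring

theorem hv_cut_le (hg : Met g) (hχ : Smooth χ) (hw : Smooth w) (hw' : Smooth w')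
    {c δ K B : ℝ} (e : w' =ᶠ[𝓝 x] fun y => c + χ y * (w y - c)) (k0 : 0 ≤ χ x) (k1 : χ x ≤ 1)
    (K1 : gn g χ x ≤ K) (K2 : |Lv g v χ x| ≤ K) (K3 : √(normSq g (hess g χ) x) ≤ K)
    (d1 : |w x - c| ≤ δ) (d2 : gn g w x ≤ δ) (hH : |hv g v w x| ≤ B) (h1 : δ * (1 + K) ≤ 1 / 4) :
    gn g w' x ≤ δ * (1 + K) ∧
      |hv g v w' x - χ x * hv g v w x| ≤ δ * (1 + K) * (√(a2 g w' x) + (B + 6)) := by
  have hδ : 0 ≤ δ := (abs_nonneg _).trans d1
  have hK : 0 ≤ K := (abs_nonneg _).trans K2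
  have hB : 0 ≤ B := (abs_nonneg _).trans hH
  have hδK : 0 ≤ δ * K := mul_nonneg hδ hK
  set η := δ * (1 + K) with hη
  have e1 : δ ≤ η := by nlinarith
  have e2 : δ * K ≤ η := by nlinarith
  have h0 : 0 ≤ η := hδ.trans e1
  have g1 : gn g w' x ≤ η := by
    refine (gn_cut hg hχ hw e).trans ?_
    have := mul_le_mul d1 K1 (gn_nonneg _ _ _) hδ
    rw [abs_of_nonneg k0]
    nlinarith [gn_nonneg g w x]
  refine ⟨g1, ?_⟩
  have q1 := gq_gb_le hg (d2.trans e1) g1 h1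
  have q2 := gq_gb_le hg g1 g1 h1
  have W1 := one_le_ww hg 1 w x
  have W2 := one_le_ww hg 1 w' x
  have W3 := w_le hg w x
  have W4 := w_le hg w' x
  have i1 : |ip g w χ x| ≤ η :=
    ((hg.abs_ip_le w χ x).trans (mul_le_mul d2 K1 (gn_nonneg _ _ _) hδ)).trans e2
  have i2 : |dn g w χ x| ≤ η := by
    rw [dn, abs_div, abs_of_pos (w_pos hg w x)]
    exact (div_le_self (abs_nonneg _) W1).trans i1
  have ha := Real.sqrt_nonneg (a2 g w' x)
  have t0 := hv_cut hg hχ hw e v hw'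
  have t1 : |χ x * hv g v w x * (ww g 1 w x - ww g 1 w' x)| ≤ B * η := by
    rw [abs_mul, abs_mul, abs_of_nonneg k0]
    refine mul_le_mul ((mul_le_of_le_one_left (abs_nonneg _) k1).trans hH)
      (abs_le.2 ⟨by linarith, by linarith⟩) (abs_nonneg _) hB
  have t2 : ∀ X, gq (gb g 1 w') X X x ≤ η / 2 →
      |gq (hess g w') X X x| ≤ ww g 1 w' x * (√(a2 g w' x) * (η / 2)) := fun X hX =>
    (abs_hess_le hg hw' X x).trans
      (mul_le_mul_of_nonneg_left (mul_le_mul_of_nonneg_left hX ha) (w_pos hg w' x).le)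
  have t3 : |(w x - c) * gq (hess g χ) (nv g w) (nv g w) x| ≤ η := by
    rw [abs_mul]
    refine (mul_le_mul d1 ((abs_gq_le hg _ _ x).trans ?_) (abs_nonneg _) hδ).trans e2
    refine (mul_le_mul K3 (gq_nv_le hg d2) (gq_nonneg hg _ x) hK).trans ?_
    exact mul_le_of_le_one_right hK (by nlinarith)
  have t4 : |dn g w χ x * dn g w w x| ≤ η := by
    rw [abs_mul]
    exact (mul_le_of_le_one_right (abs_nonneg _) (by linarith [abs_dn_le hg w w x])).trans i2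
  have t5 : |(w x - c) * Lv g v χ x| ≤ η := by
    rw [abs_mul]; exact (mul_le_mul d1 K2 (abs_nonneg _) hδ).trans e2
  have t6 : η * (B + 6) ≤ ww g 1 w' x * (η * (B + 6)) := le_mul_of_one_le_left (by positivity) W2
  rw [← mul_le_mul_iff_right₀ (w_pos hg w' x), ← abs_of_pos (w_pos hg w' x), ← abs_mul, t0,
    abs_of_pos (w_pos hg w' x), abs_le]
  obtain ⟨u1, u2⟩ := abs_le.1 (t2 _ q1)
  obtain ⟨u3, u4⟩ := abs_le.1 (t2 _ q2)
  rw [abs_le] at t1 t3 t4 t5 i1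
  constructor
  · linarith only [u1, u4, t1.1, t3.2, t4.2, t5.1, i1.1, t6]
  · linarith only [u2, u3, t1.2, t3.1, t4.1, t5.2, i1.2, t6]

/-- **the tail with a second cutoff `κ`, pointwise form** -/
theorem tailK_pt (hg : Met g) (hv' : CC ∞ v) (hχ : Smooth χ) (hκ : Smooth κ)
    (k : ∀ x, 0 ≤ χ x ∧ χ x ≤ 1) (k' : ∀ x, 0 ≤ κ x ∧ κ x ≤ 1) (hT : IsCompact T) {ε : ℝ}
    (hε : 0 < ε) : ∃ δ > 0, ∀ x ∈ T, ((χ =ᶠ[𝓝 x] fun _ => 1) ∨ κ =ᶠ[𝓝 x] fun _ => 1) →
    ∀ (w w' : M → ℝ) (c : ℝ), Smooth w → Smooth w' →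
      (w' =ᶠ[𝓝 x] fun y => c + χ y * (w y - c)) → |w x - c| ≤ δ → gn g w x ≤ δ →
      |hv g v w x| ≤ δ → κ x * Rv g v x + (1 - κ x) * Rv (gb g 1 w) (vg g v w) x - ε ≤
        Rv (gb g 1 w') (kv g v κ w') x := by
  have c1 : Continuous fun x => gn g χ x + |Lv g v χ x| + √(normSq g (hess g χ) x) + gn g κ x :=
    (((hg.cont_gn hχ.one).add (sm_Lv hg hv' hχ).cont.abs).add
      (hg.sm_normSq (hg.sm_hess hχ)).cont.sqrt).add (hg.cont_gn hκ.one)
  obtain ⟨K, K0, hK⟩ := bd_cont hT c1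
  have hK1 : 0 < 1 + K := by positivity
  obtain ⟨η, η0, η1, η2⟩ : ∃ η > (0 : ℝ), η ≤ 1 / 4 ∧ 100 * η ≤ ε :=
    ⟨min (1 / 4) (ε / 100), by positivity, min_le_left _ _,
      by linarith [min_le_right (1 / 4) (ε / 100)]⟩
  refine ⟨η / (1 + K), by positivity, fun x hx hk w w' c hw hw' e d1 d2 hH => ?_⟩
  have b := (le_abs_self _).trans (hK x hx)
  have b1 := gn_nonneg g χ x
  have b2 := abs_nonneg (Lv g v χ x)
  have b3 := Real.sqrt_nonneg (normSq g (hess g χ) x)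
  have b4 := gn_nonneg g κ x
  have e1 : η / (1 + K) * (1 + K) = η := div_mul_cancel₀ _ hK1.ne'
  have e2 : η / (1 + K) ≤ η := div_le_self η0.le (by linarith)
  obtain ⟨h1, h2⟩ := hv_cut_le hg hχ hw hw' (K := K) (B := 1) e (k x).1 (k x).2 (by linarith)
    (by linarith) (by linarith) d1 d2 (by linarith) (by rw [e1]; exact η1)
  rw [e1] at h1 h2
  have q := gq_gb_le hg h1 h1 η1
  have q0 := gq_nonneg (met_g hg hw') (nv g w') x
  have L0 := (met_g hg hw').ip_nonneg (lw g w') x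
  have a0 := a2_nonneg hg hw' x
  rw [Rv_kv hg hv' hκ hw']
  rcases hk with k1 | k1
  · have e3 : w' =ᶠ[𝓝 x] w := e.trans (k1.mono fun y hy => by simp [hy])
    rw [← Rv_of_ev (gb_congr e3) (vg_congr e3), (hv_congr e3).self_of_nhds]
    have s1 : |dn g w' κ x| ≤ K := (abs_dn_le hg _ _ x).trans (by linarith)
    have s2 : |hv g v w x * dn g w' κ x| ≤ η := by
      rw [abs_mul]
      refine (mul_le_mul hH s1 (abs_nonneg _) (by positivity)).trans ?_
      rw [← e1]; exact mul_le_mul (e1.symm ▸ le_rfl) (by linarith) K0 (by positivity)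
    have s3 : hv g v w x ^ 2 ≤ η := by
      have := abs_le.1 (hH.trans e2)
      nlinarith
    have s4 : κ x * hv g v w x ^ 2 ≤ η := (mul_le_of_le_one_left (sq_nonneg _) (k' x).2).trans s3
    have s5 : (κ x * hv g v w x) ^ 2 * gq (gb g 1 w') (nv g w') (nv g w') x ≤ η := by
      refine (mul_le_of_le_one_right (sq_nonneg _) (by linarith)).trans ?_
      rw [mul_pow]
      exact (mul_le_of_le_one_left (sq_nonneg _) (pow_le_one₀ (k' x).1 (k' x).2)).trans s3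
    linarith [(abs_le.1 s2).2, mul_nonneg (k' x).1 (add_nonneg a0 L0)]
  · rw [dn_congr .rfl k1, k1.self_of_nhds, dn, ip_const_right]
    have s1 : |χ x * hv g v w x| ≤ η := by
      rw [abs_mul, abs_of_nonneg (k x).1]
      exact (mul_le_of_le_one_left (abs_nonneg _) (k x).2).trans (hH.trans e2)
    have s2 : |hv g v w' x| ≤ η * (√(a2 g w' x) + 8) := by
      linarith [abs_sub_abs_le_abs_sub (hv g v w' x) (χ x * hv g v w x)]
    have s3 : hv g v w' x ^ 2 ≤ (η * (√(a2 g w' x) + 8)) ^ 2 :=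
      sq_le_sq' (abs_le.1 s2).1 (abs_le.1 s2).2
    have s4 := Real.sq_sqrt a0
    have s5 : (√(a2 g w' x) + 8) ^ 2 ≤ 2 * a2 g w' x + 128 := by
      nlinarith [sq_nonneg (√(a2 g w' x) - 8)]
    have s6 : η ^ 2 ≤ η / 4 := by nlinarith
    have s7 : hv g v w' x ^ 2 ≤ a2 g w' x / 8 + 32 * η := by
      rw [mul_pow] at s3
      nlinarith [mul_le_mul s6 s5 (sq_nonneg _) (by positivity)]
    have s8 := mul_le_of_le_one_right (sq_nonneg (hv g v w' x)) (q.trans (by linarith))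
    simp only [one_mul, sub_self, zero_mul, zero_div, mul_zero]
    linarith

/-- where `κ = 0` the drift is the drift of the graph -/
theorem kv_zero (k : κ =ᶠ[𝓝 x] fun _ => 0) (i : Fin n) : kv g v κ w' i =ᶠ[𝓝 x] vg g v w' i :=
  k.mono fun y hy => by simp [kv, fl, hy]

theorem vg_const {c : ℝ} (e : w' =ᶠ[𝓝 x] fun _ => c) (i : Fin n) : vg g v w' i =ᶠ[𝓝 x] v i := by
  have h0 : lw g (fun _ => c) = fun _ => 0 := by
    funext y; simp [lw, ww, ip_const_left]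
  exact (vg_congr e i).trans (.of_forall fun y => by simp [vg, h0, pd_const])

/-- where the function is constant the drift is the old one -/
theorem kv_const {c : ℝ} (e : w' =ᶠ[𝓝 x] fun _ => c) (i : Fin n) : kv g v κ w' i =ᶠ[𝓝 x] v i := by
  filter_upwards [vg_const (g := g) (v := v) e i,
    eventually_all.2 (nv_congr (g := g) e)] with y h2 h4
  simp only [kv, fl, h2, h4]
  simp [nv, gr, pd_const]

/-- **the tail with a second cutoff `κ`, global form** -/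
theorem tailK (hg : Met g) (hv' : CC ∞ v) (hχ : Smooth χ) (hκ : Smooth κ)
    (k : ∀ x, 0 ≤ χ x ∧ χ x ≤ 1) (k' : ∀ x, 0 ≤ κ x ∧ κ x ≤ 1) (hT : IsCompact T)
    (h1 : ∀ x, (χ =ᶠ[𝓝 x] fun _ => 1) ∨ κ =ᶠ[𝓝 x] fun _ => 1)
    (h0 : ∀ x ∉ T, (χ =ᶠ[𝓝 x] fun _ => 0) ∨ κ =ᶠ[𝓝 x] fun _ => 0) {ε : ℝ} (hε : 0 < ε) :
    ∃ δ > 0, ∀ w c : M → ℝ, Smooth w →
      (∀ x, (χ =ᶠ[𝓝 x] fun _ => 1) ∨ c =ᶠ[𝓝 x] fun _ => c x) →
      (∀ x ∈ T, |w x - c x| ≤ δ ∧ gn g w x ≤ δ ∧ |hv g v w x| ≤ δ) →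
      Smooth (fun y => c y + χ y * (w y - c y)) ∧
      CC ∞ (kv g v κ fun y => c y + χ y * (w y - c y)) ∧
      ∀ x, κ x * Rv g v x + (1 - κ x) * Rv (gb g 1 w) (vg g v w) x - ε ≤
        Rv (gb g 1 fun y => c y + χ y * (w y - c y))
          (kv g v κ fun y => c y + χ y * (w y - c y)) x := by
  obtain ⟨δ, hδ, h⟩ := tailK_pt hg hv' hχ hκ k k' hT hε
  refine ⟨δ, hδ, fun w c hw hc hb => ?_⟩
  set w' : M → ℝ := fun y => c y + χ y * (w y - c y) with hw'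
  have e2 : ∀ x, w' =ᶠ[𝓝 x] fun y => c x + χ y * (w y - c x) := fun x =>
    (hc x).elim (fun k1 => k1.mono fun y hy => by simp [hw', hy])
      fun k1 => k1.mono fun y hy => by simp only [hw', hy]
  have s : Smooth w' := cd_of_cAt le_rfl fun x =>
    (CD.contDiffAt (CD.add cd_const (CD.mul hχ (CD.sub hw cd_const)))).congr_of_eventuallyEq (e2 x)
  refine ⟨s, cc_kv hg hv' hκ s, fun x => ?_⟩
  by_cases hx : x ∈ T
  · exact h x hx (h1 x) w w' (c x) hw s (e2 x) (hb x hx).1 (hb x hx).2.1 (hb x hx).2.2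
  rcases h0 x hx with k0 | k0
  · have e3 : w' =ᶠ[𝓝 x] fun _ => c x := (e2 x).trans (k0.mono fun y hy => by simp [hy])
    have k1 := (h1 x).resolve_left fun k1 => by
      simpa using k0.self_of_nhds.symm.trans k1.self_of_nhds
    rw [Rv_of_ev (gb_const e3) (kv_const e3), k1.self_of_nhds]
    linarith
  · have k1 := (h1 x).resolve_right fun k1 => by
      simpa using k0.self_of_nhds.symm.trans k1.self_of_nhds
    have e3 : w' =ᶠ[𝓝 x] w := (e2 x).trans (k1.mono fun y hy => by simp [hy])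
    rw [Rv_of_ev (gb_congr e3) fun i => (kv_zero k0 i).trans (vg_congr e3 i), k0.self_of_nhds]
    linarith

/-! ### decay of the mean curvature -/

theorem abs_hv_smul (hg : Met g) (hχ : Smooth χ) (s : ℝ) (x : M) :
    |hv g v (fun y => s * χ y) x| ≤ |s| * (|Lv g v χ x| + √(normSq g (hess g χ) x)) := by
  have hs : Smooth fun y => s * χ y := CD.mul cd_const hχ
  have h1 := Lv_eq_hv hg v hs x
  set N := nv g fun y => s * χ y
  have h2 : Lv g v (fun y => s * χ y) x = s * Lv g v χ x := by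
    rw [Lv, Lv, lap_const_mul, iv_smul (s := 1) (t := s) (a := v) (b := df χ) (b' := df fun y => s * χ y)
      (fun _ => (one_mul _).symm) fun i => pd_const_mul _ i]
    ring
  have h3 : gq (hess g fun y => s * χ y) N N x = s * gq (hess g χ) N N x := by
    simp only [gq, hess_const_mul, Finset.mul_sum, mul_assoc]
  have h4 : gq g N N x ≤ 1 := by
    rw [gq_nv hg, div_le_one (pow_pos (w_pos hg _ x) 2), w_sq hg]; linarith
  have h5 := (abs_gq_le hg (hess g χ) N x).trans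
    (mul_le_of_le_one_right (Real.sqrt_nonneg _) h4)
  have h6 : ww g 1 (fun y => s * χ y) x * hv g v (fun y => s * χ y) x =
      s * (Lv g v χ x - gq (hess g χ) N N x) := by linarith
  refine (le_mul_of_one_le_left (abs_nonneg _) (one_le_ww hg 1 (fun y => s * χ y) x)).trans ?_
  rw [← abs_of_pos (w_pos hg _ x), ← abs_mul, h6, abs_mul]
  exact mul_le_mul_of_nonneg_left ((abs_sub _ _).trans (by linarith)) (abs_nonneg _)

/-- **the low barrier** -/
theorem decay2 (hg : Met g) (hv' : CC ∞ v) (hK : IsCompact K) (hO : IsOpen O) (hKO : K ⊆ O) :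
    ∃ C ≥ (0 : ℝ), ∀ x ∈ K, ∀ (w : M → ℝ) (c δ : ℝ), Smooth w → 0 < δ → (∀ y ∈ O, |w y - c| ≤ δ) →
      (∃ y ∈ O, w x ≤ w y ∧ hv g v w y ≤ C * δ) ∧ ∃ y ∈ O, w y ≤ w x ∧ -(C * δ) ≤ hv g v w y := by
  obtain ⟨χ, s, c, t, r, k⟩ := exists_cut hK hO hKO
  obtain ⟨C, C0, hC⟩ := bd_cont c
    ((sm_Lv hg hv' s).cont.abs.add (hg.sm_normSq (hg.sm_hess s)).cont.sqrt)
  have key : ∀ x ∈ K, ∀ (w : M → ℝ) (c δ : ℝ), Smooth w → 0 < δ → (∀ y ∈ O, |w y - c| ≤ δ) →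
      ∃ y ∈ O, w x ≤ w y ∧ hv g v w y ≤ 3 * C * δ := fun x hx w a δ hw hδ h => by
    have s1 : Smooth fun y => -(3 * δ) * χ y := CD.mul cd_const s
    have sF : Smooth fun y => w y - -(3 * δ) * χ y := CD.sub hw s1
    have x1 : χ x = 1 := (k x hx).self_of_nhds
    have x2 : x ∈ tsupport χ := subset_tsupport _ (by simp [x1])
    obtain ⟨p, hp, hm⟩ := IsCompact.exists_isMaxOn c ⟨x, x2⟩ sF.cont.continuousOn
    have p1 : w x - -(3 * δ) * χ x ≤ w p - -(3 * δ) * χ p := hm x2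
    have p2 : χ p ≠ 0 := fun h0 => by
      rw [h0, x1] at p1
      linarith [(abs_le.1 (h x (hKO hx))).1, (abs_le.1 (h p (t hp))).2]
    have m : IsLocalMax (fun y => w y - -(3 * δ) * χ y) p := hm.isLocalMax (mem_of_superset
      (s.cont.isOpen_support.mem_nhds p2) (subset_tsupport _))
    refine ⟨p, t hp, by rw [x1] at p1; nlinarith [(r p).2], ?_⟩
    refine (P210C.cmp_pt hg v (.of_forall fun z => CD.contDiffAt hw)
      (.of_forall fun z => CD.contDiffAt s1) m).2.trans ((le_abs_self _).trans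
        ((abs_hv_smul hg s _ p).trans ?_))
    rw [abs_neg, abs_of_pos (by positivity)]
    have : |Lv g v χ p| + √(normSq g (hess g χ) p) ≤ C := (le_abs_self _).trans (hC p hp)
    nlinarith
  refine ⟨3 * C, by positivity, fun x hx w a δ hw hδ h => ⟨key x hx w a δ hw hδ h, ?_⟩⟩
  obtain ⟨y, h1, h2, h3⟩ := key x hx _ (-a) δ (CD.neg hw) hδ fun y hy => by
    rw [← abs_neg]; simpa [sub_eq_neg_add, add_comm] using h y hy
  rw [hv_neg] at h3
  exact ⟨y, h1, neg_le_neg_iff.1 h2, neg_le.1 h3⟩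

/-- **DECAY with small mean curvature** -/
theorem decayS (hg : Met g) (hv' : CC ∞ v) (hK : IsCompact K) (hO : IsOpen O) (hKO : K ⊆ O)
    (B : ℝ) {ε : ℝ} (hε : 0 < ε) : ∃ A₀ > (0 : ℝ), ∀ A, A₀ ≤ A → ∀ (Φ : ℝ → ℝ → ℝ)
      (I : Set ℝ) (c : ℝ) (w : M → ℝ), Convex ℝ I → c ∈ I → Φ c 1 = 0 →
      (∀ t ∈ I, ∀ s ∈ Icc (0 : ℝ) 1, ∃ a b, A ≤ a ∧ |b| ≤ B ∧
        HasFDerivAt (fun q : ℝ × ℝ => Φ q.1 q.2)
          (a • ContinuousLinearMap.fst ℝ ℝ ℝ + b • ContinuousLinearMap.snd ℝ ℝ ℝ) (t, s)) →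
      Smooth w → (∀ x ∈ O, w x ∈ I ∧ hv g v w x = Φ (w x) (ww g 1 w x)⁻¹) →
      ∀ x ∈ K, |w x - c| ≤ ε ∧ gn g w x ≤ ε ∧ |hv g v w x| ≤ ε := by
  obtain ⟨K₁, c1, c2, c3⟩ := exists_compact_between hK hO hKO
  obtain ⟨C, C0, h2⟩ := decay2 hg hv' hK isOpen_interior c2
  obtain ⟨Λ, -, h⟩ := decay hg hv' c1 hO c3 B
  have B0 := abs_nonneg B
  have D0 : 0 < 1 + C + |B| := by positivity
  obtain ⟨δ, δ0, δ1, δ2⟩ : ∃ δ > (0 : ℝ), δ ≤ 1 ∧ δ * (1 + C + |B|) ≤ ε :=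
    ⟨min 1 (ε / (1 + C + |B|)), by positivity, min_le_left _ _,
      (le_div_iff₀ D0).1 (min_le_right _ _)⟩
  obtain ⟨A₀, A0, h⟩ := h (δ ^ 2) (by positivity)
  refine ⟨A₀, A0, fun A hA Φ I c w hI hc h3 h4 hw h5 x hx => ?_⟩
  have h6 := h A hA Φ I c w hI hc h3 h4 hw h5
  have d1 : δ ^ 2 ≤ δ := by nlinarith
  have d2 : δ ≤ ε := by nlinarith
  have g1 : ∀ y ∈ K₁, gn g w y ≤ δ := fun y hy =>
    (abs_le_of_sq_le_sq' (by rw [hg.gn_sq]; exact (h6 y hy).2.1) δ0.le).2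
  have u := P210C.winv hg w
  have u1 : ∀ y ∈ K₁, 1 - δ ≤ (ww g 1 w y)⁻¹ := fun y hy => by
    rw [← one_div, le_div_iff₀ (w_pos hg w y)]
    nlinarith [w_le hg w y, g1 y hy]
  have k0 : ∀ y ∈ K₁, ∀ z ∈ K₁, w y ≤ w z → hv g v w y ≤ hv g v w z + |B| * δ :=
    fun y hy z hz k => by
      have := stiff_le hI h4 (h5 y (c3 hy)).1 (h5 z (c3 hz)).1 (u y) (u z) k
      rw [← (h5 y (c3 hy)).2, ← (h5 z (c3 hz)).2] at this
      have k1 : B * |(ww g 1 w z)⁻¹ - (ww g 1 w y)⁻¹| ≤ |B| * δ :=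
        mul_le_mul (le_abs_self B) (abs_le.2 ⟨by linarith [u1 z hz, (u y).2],
          by linarith [u1 y hy, (u z).2]⟩) (abs_nonneg _) B0
      linarith [mul_nonneg (A0.le.trans hA) (sub_nonneg.2 k)]
  have x1 := interior_subset (c2 hx)
  obtain ⟨⟨y, y1, y2, y3⟩, z, z1, z2, z3⟩ := h2 x hx w c δ hw δ0 fun y hy =>
    (h6 y (interior_subset hy)).1.trans d1
  refine ⟨((h6 x x1).1.trans d1).trans d2, (g1 x x1).trans d2, abs_le.2 ⟨?_, ?_⟩⟩
  · linarith [k0 z (interior_subset z1) x x1 z2]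
  · linarith [k0 x x1 y (interior_subset y1) y2]

/-! ### the statements of `P210F` -/

theorem decF (n : ℕ) : P210F.DEC n := by
  intro X _ g v hg hv' O T hO hT hTO r δ hδ
  obtain ⟨A, -, h⟩ := decayS hg hv' hT hO hTO 0 (ε := min δ 1) (by positivity)
  refine ⟨A, fun w Φ hw hΦ h0 h1 h2 x hx => ?_⟩
  obtain ⟨k1, k2, k3⟩ := h A le_rfl (fun t _ => Φ t) univ 0 w convex_univ trivial h0
    (fun t _ s _ => ⟨deriv Φ t, 0, h1 t, by simp, 
      (((hΦ.differentiable (by simp) t).hasDerivAt.hasFDerivAt).comp (t, s)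
        (hasFDerivAt_fst (𝕜 := ℝ) (p := (t, s)))).congr_fderiv (by ext <;> simp)⟩) hw (fun x hx => ⟨trivial, (h2 x hx).2⟩) x hx
  refine ⟨by simpa using k1.trans (min_le_left _ _), ?_, k3.trans (min_le_right _ _)⟩
  rw [← hg.gn_sq]
  nlinarith [gn_nonneg g w x, min_le_left δ 1, min_le_right δ 1]

theorem tailF (n : ℕ) : P210F.TAIL n := by
  intro X _ g v hg hv' χ T hχ k hT h01 ε hε
  obtain ⟨δ, hδ, h⟩ := tail hg hv' hχ k hT h01 1 hε
  refine ⟨min δ (δ ^ 2), by positivity, fun w hw hb => ?_⟩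
  obtain ⟨-, h2, h3⟩ := h w (fun _ => 0) hw (fun x => .inr .rfl) fun x hx =>
    ⟨by simpa using (hb x hx).1.trans (min_le_left _ _), (abs_le_of_sq_le_sq' (by
      rw [hg.gn_sq]; exact (hb x hx).2.1.trans (min_le_right _ _)) hδ.le).2, (hb x hx).2.2⟩
  simp only [zero_add, sub_zero] at h2 h3
  exact ⟨_, h2, fun x hx i => (tv_zero (c := 0) hx (hx.mono fun y hy => by simp [hy]) i).self_of_nhds,
    h3⟩

end Vale.Agent.P210T
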