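import Vale.Agent.P210T.TailK
import Vale.Agent.P210R.Defs
import Vale.Agent.P210U.Loc

/-!
# P210T: the localised step `LSTEP`
-/

open Filter Topology Set
open scoped ContDiff
open Vale.Agent.P366M Vale.Agent.P366M.Gr Vale.Agent.P366M.Y.C Vale.Agent.P366M.Y.C.GbH
open Vale.Agent.P210G Vale.Agent.P210Y Vale.Agent.P210C Vale.Agent.P210R

noncomputable section

namespace Vale.Agent.P210T

variable {n : ℕ} {M : Type} [Mf0 n M] {g : Fld n M} {v : Fin n → M → ℝ} {w f ψ ϱ : M → ℝ} {x : M}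

theorem gq_gb_nv (hg : Met g) (w : M → ℝ) (x : M) :
    gq (gb g 1 w) (nv g w) (nv g w) x = ip g w w x := by
  have h0 := (w_pos hg w x).ne'
  rw [gq_gb, ev_df_nv hg, gq_nv hg, dn]
  field_simp
  rw [w_sq hg]

theorem two_dn_le (hg : Met g) (hw : Smooth w) (f : M → ℝ) (y : ℝ) (x : M) :
    2 * y * dn g w f x ≤ ip (gb g 1 w) f f x + y ^ 2 * ip g w w x := by
  have hg' := met_g hg hw
  have h := iv_nonneg hg' (fun i z => 1 * df f i z + (-y) * fl (gb g 1 w) (nv g w) i z) x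
  rw [iv_sq hg' (b := df f) (c := fl (gb g 1 w) (nv g w)) fun _ => rfl, iv_fl hg', gq_gb_nv hg,
    iv_df, iv_eq_ev, sh_fl hg', ev_df_nv hg] at h
  linarith

theorem dn_iw (hg : Met g) (hw : Smooth w) (x : M) :
    dn g w (iw g w) x = -(iw g w x * dn g w (lw g w) x) := by
  have h0 := (w_pos hg w x).ne'
  have d := (sm_w hg hw).diff x
  rw [dn_comp (χ := fun t => t⁻¹) (hasDerivAt_inv h0) d,
    show lw g w = fun y => Real.log (ww g 1 w y) from rfl, dn_comp (Real.hasDerivAt_log h0) d]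
  field_simp

/-- an equation `H = Φ (w, u)` with `Φ_t ≥ 0` loses at most `Φ_u² |dw|²` -/
theorem Rv_ge_of (hg : Met g) (hv' : CC ∞ v) (hw : Smooth w) {a b : ℝ} (ha : 0 ≤ a)
    (e : ∀ i, pd i (hv g v w) x = a * pd i w x + b * pd i (iw g w) x) :
    Rv g v x - b ^ 2 * ip g w w x ≤ Rv (gb g 1 w) (vg g v w) x := by
  have h1 := two_dn_le hg hw (lw g w) (b * iw g w x) x
  have h2 : (b * iw g w x) ^ 2 * ip g w w x ≤ b ^ 2 * ip g w w x := by
    refine mul_le_mul_of_nonneg_right ?_ (hg.ip_nonneg w x)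
    rw [mul_pow]
    exact mul_le_of_le_one_right (sq_nonneg _) (pow_le_one₀ (iw_pos hg w x).le (iw_le hg w x))
  rw [gid hg hv' hw, dn_lin e, dn_iw hg hw]
  linarith [sq_nonneg (hv g v w x), a2_nonneg hg hw x, mul_nonneg ha (dn_nonneg hg w x)]

/-- the profile of the spring -/
theorem spring (hg : Met g) (hψ : Smooth ψ) (k : ∀ x, 0 ≤ ψ x ∧ ψ x ≤ 1) {β c₀ m : ℝ} (hβ : 0 < β)
    (hm : 0 ≤ m) (h : ∀ x, 16 * ip g ψ ψ x ≤ c₀ * β) : ∃ κ : M → ℝ, Smooth κ ∧ ∀ x, 0 ≤ κ x ∧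
      ip g κ κ x ≤ c₀ * κ x * (β + κ x) ^ 2 ∧ (ψ x = 0 → κ x = 0) ∧ (ψ x = 1 → κ x = β * m ^ 2) := by
  have p : ∀ x, 0 < 1 + m - m * ψ x := fun x => by nlinarith [(k x).2]
  refine ⟨fun x => β * (m * ψ x / (1 + m - m * ψ x)) ^ 2, CD.mul cd_const (CD.pow (CD.div
    (CD.mul cd_const hψ) (CD.sub cd_const (CD.mul cd_const hψ)) fun x => (p x).ne') 2),
    fun x => ⟨by positivity, ?_, fun e => by simp [e], fun e => by simp [e]⟩⟩
  have d := ((((hasDerivAt_id' (ψ x)).const_mul m).fun_div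
    (((hasDerivAt_id' (ψ x)).const_mul m).const_sub (1 + m)) (p x).ne').fun_pow 2).const_mul β
  rw [ip_comp d d (hψ.diff x) (hψ.diff x)]
  set D := 1 + m - m * ψ x with hD
  set G := m * ψ x / D with hG
  have G0 : 0 ≤ G := div_nonneg (mul_nonneg hm (k x).1) (p x).le
  obtain ⟨E, hE⟩ : ∃ E, E = (m * 1 * D - m * ψ x * -(m * 1)) / D ^ 2 := ⟨_, rfl⟩
  have D2 := pow_pos (p x) 2
  have e0 : 0 ≤ E := by
    rw [hE]; refine div_nonneg ?_ D2.le
    nlinarith [mul_nonneg hm (p x).le, mul_nonneg (mul_nonneg hm (k x).1) hm]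
  have e1 : E ≤ 2 * (1 + G ^ 2) := by
    rw [hE, hG, div_pow, div_le_iff₀ D2, mul_assoc 2, add_mul, div_mul_cancel₀ _ D2.ne', hD]
    nlinarith [sq_nonneg (1 + m - 2 * m * ψ x)]
  have e2 : E ^ 2 ≤ (2 * (1 + G ^ 2)) ^ 2 := pow_le_pow_left₀ e0 e1 2
  have e3 := mul_le_mul e2 (h x) (by linarith [hg.ip_nonneg ψ x]) (sq_nonneg _)
  have e4 := mul_le_mul_of_nonneg_left e3 (by positivity : 0 ≤ β ^ 2 * G ^ 2 / 4)
  rw [← hE]
  norm_num
  linarith

theorem hf_deriv (q V B k : ℝ) {t : ℝ} (ht : t ≠ 0) (s : ℝ) :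
    HasFDerivAt (fun p : ℝ × ℝ => -(q * (1 - p.2) / p.1) + V * p.1 + B * (p.1 - k / p.1))
      ((q * (1 - s) / t ^ 2 + V + B * (1 + k / t ^ 2)) • ContinuousLinearMap.fst ℝ ℝ ℝ +
        (q / t) • ContinuousLinearMap.snd ℝ ℝ ℝ) (t, s) := by
  have h1 : HasFDerivAt (fun p : ℝ × ℝ => p.1) (ContinuousLinearMap.fst ℝ ℝ ℝ) (t, s) :=
    hasFDerivAt_fst
  have h2 : HasFDerivAt (fun p : ℝ × ℝ => p.2) (ContinuousLinearMap.snd ℝ ℝ ℝ) (t, s) :=
    hasFDerivAt_snd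
  have h3 := (hasDerivAt_inv ht).comp_hasFDerivAt (t, s) h1
  simp only [div_eq_mul_inv]
  refine ((((((h2.const_sub 1).const_mul q).fun_mul h3).fun_neg.fun_add (h1.const_mul V)).fun_add
    ((h1.fun_sub (h3.const_mul k)).const_mul B))).congr_fderiv ?_
  ext <;> simp <;> ring

theorem st_ev {a b : ℝ} (hϱ : Continuous ϱ) (hab : a < b) :
    (ϱ x < a → (fun y => Real.smoothTransition ((ϱ y - a) / (b - a))) =ᶠ[𝓝 x] fun _ => 0) ∧
    (b < ϱ x → (fun y => Real.smoothTransition ((ϱ y - a) / (b - a))) =ᶠ[𝓝 x] fun _ => 1) :=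
  ⟨fun h => (hϱ.continuousAt.eventually_lt continuousAt_const h).mono fun _ hy =>
    Real.smoothTransition.zero_of_nonpos (div_nonpos_of_nonpos_of_nonneg (by linarith) (by linarith)),
  fun h => (continuousAt_const.eventually_lt hϱ.continuousAt h).mono fun _ hy =>
    Real.smoothTransition.one_of_one_le ((one_le_div (by linarith)).2 (by linarith))⟩

theorem cutoff (hϱ : Smooth ϱ) {a b : ℝ} (hab : a < b) : ∃ χ : M → ℝ, Smooth χ ∧
    (∀ x, 0 ≤ χ x ∧ χ x ≤ 1) ∧ (∀ x, ϱ x < a → χ =ᶠ[𝓝 x] fun _ => 0) ∧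
    ∀ x, b < ϱ x → χ =ᶠ[𝓝 x] fun _ => 1 :=
  ⟨_, Real.smoothTransition.contDiff.compM (CD.div_const (CD.sub hϱ cd_const) (b - a)),
    fun _ => ⟨Real.smoothTransition.nonneg _, Real.smoothTransition.le_one _⟩,
    fun _ => (st_ev hϱ.cont hab).1, fun _ => (st_ev hϱ.cont hab).2⟩

theorem low_bar {a β km Vm V k κ : ℝ} (ha : 0 < a) (hβ : 0 < β) (h1 : 2 * a ^ 2 ≤ km)
    (h2 : 2 * Vm * a ^ 2 ≤ β * km) (hV : V ≤ Vm) (hk : km ≤ k) (hκ : 0 ≤ κ) :
    V * a ^ 2 + (β + κ) * (a ^ 2 - k) ≤ 0 := by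
  have a2 := pow_pos ha 2
  nlinarith [mul_le_mul_of_nonneg_right hV a2.le, mul_nonneg hκ (by linarith : 0 ≤ k - a ^ 2),
    mul_nonneg hβ.le (by linarith : 0 ≤ k - a ^ 2 - km / 2)]

theorem exists_a {β km Vm : ℝ} (hk : 0 < km) (hβ : 0 < β) (hV : 0 ≤ Vm) :
    ∃ a > (0 : ℝ), a ≤ 1 ∧ 2 * a ^ 2 ≤ km ∧ 2 * Vm * a ^ 2 ≤ β * km := by
  have p : 0 < 2 * Vm + 1 := by positivity
  obtain ⟨a, a0, a1, h1, h2⟩ : ∃ a > (0 : ℝ), a ≤ 1 ∧ a ≤ km / 2 ∧ a ≤ β * km / (2 * Vm + 1) :=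
    ⟨min 1 (min (km / 2) (β * km / (2 * Vm + 1))), by positivity, min_le_left _ _,
      (min_le_right _ _).trans (min_le_left _ _), (min_le_right _ _).trans (min_le_right _ _)⟩
  have a2 : a ^ 2 ≤ a := by nlinarith
  rw [le_div_iff₀ p] at h2
  exact ⟨a, a0, a1, by linarith, by nlinarith [mul_le_mul_of_nonneg_left a2 hV]⟩

theorem sq_le_of {t e η : ℝ} (h0 : 0 ≤ t) (h : t ≤ e) (h1 : e ≤ 1) (h2 : e ≤ η) : t ^ 2 ≤ η := by
  nlinarith

theorem sq_near {t c k V B e η : ℝ} (c0 : 0 < c) (k0 : 0 < k) (V0 : 0 ≤ V) (B0 : 0 < B)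
    (h : c ^ 2 * (V + B) = B * k) (h1 : k * V ≤ η * B) (h2 : |t - c| ≤ e) (e1 : e ≤ 1)
    (e2 : e * (2 * k + 3) ≤ η) : |t ^ 2 - k| ≤ η + η := by
  have p1 : c ^ 2 ≤ k := le_of_mul_le_mul_right (by nlinarith) B0
  have p2 : k - c ^ 2 ≤ η := le_of_mul_le_mul_right (by nlinarith) B0
  have p3 : c ≤ k + 1 := by nlinarith
  have p4 : |t ^ 2 - c ^ 2| ≤ e * (2 * k + 3) := by
    rw [sq_sub_sq, abs_mul, mul_comm]
    refine mul_le_mul h2 (abs_le.2 ⟨?_, ?_⟩) (abs_nonneg _) ((abs_nonneg _).trans h2) <;>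
      linarith [(abs_le.1 h2).1, (abs_le.1 h2).2]
  exact abs_le.2 ⟨by linarith [(abs_le.1 p4).1], by linarith [(abs_le.1 p4).2]⟩

theorem exists_sol [CompactSpace M] (hn : 2 ≤ n) (hg : Met g) (hv' : CC ∞ v) {V k κ : M → ℝ}
    (hV : Smooth V) (hk : Smooth k) (sk : Smooth κ) (V0 : ∀ x, 0 ≤ V x) (k0 : ∀ x, 0 < k x)
    (hκ : ∀ x, 0 ≤ κ x) {q β a : ℝ} (q0 : 0 ≤ q) (β0 : 0 < β) (a0 : 0 < a) (a1 : a ≤ 1)
    (lo : ∀ x, V x * a ^ 2 + (β + κ x) * (a ^ 2 - k x) ≤ 0) : ∃ w, Smooth w ∧ (∀ x, a ≤ w x) ∧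
      ∀ x, hv g v w x = Hf q β V k κ x (w x) (ww g 1 w x)⁻¹ := by
  obtain ⟨kM, kM0, m3⟩ := bd_cont isCompact_univ hk.cont
  obtain ⟨w, hw, wI, eq⟩ := capV (H := Hf q β V k κ) hn hg hv' (half_lt_self a0)
    (by linarith : a ≤ kM + 1) (lt_add_one _) β0
    (((((smH_const q).mul ((smH_const 1).sub smH_u)).div smH_t fun _ _ h _ =>
      ((half_pos a0).trans h.1).ne').neg.add ((smH_x hV).mul smH_t)).add
      (((smH_const β).add (smH_x sk)).mul (smH_t.sub ((smH_x hk).div smH_t fun _ _ h _ =>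
        ((half_pos a0).trans h.1).ne'))))
    (fun x s hs t ht t' _ h => by
      have t0 := (half_pos a0).trans ht.1
      have h1 := div_le_div_of_nonneg_left (mul_nonneg q0 (sub_nonneg.2 hs.2)) t0 h
      have h2 := mul_le_mul_of_nonneg_left (div_le_div_of_nonneg_left (k0 x).le t0 h)
        (add_nonneg β0.le (hκ x))
      simp only [Hf]
      nlinarith [mul_le_mul_of_nonneg_left h (V0 x), mul_le_mul_of_nonneg_left h (hκ x)])
    (fun x => by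
      have e : Hf q β V k κ x a 1 = (V x * a ^ 2 + (β + κ x) * (a ^ 2 - k x)) / a := by
        simp only [Hf]; field_simp; ring
      exact e ▸ div_nonpos_of_nonpos_of_nonneg (lo x) a0.le)
    (fun x => by
      have h1 : k x / (kM + 1) ≤ kM + 1 := by
        rw [div_le_iff₀ (by positivity)]
        nlinarith [(le_abs_self _).trans (m3 x trivial)]
      simp only [Hf, sub_self, mul_zero, zero_div, neg_zero, zero_add]
      exact add_nonneg (mul_nonneg (V0 x) (by positivity))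
        (mul_nonneg (add_nonneg β0.le (hκ x)) (sub_nonneg.2 h1)))
  exact ⟨w, hw, fun x => (wI x).1, eq⟩

/-- **LSTEP** -/
theorem lstep : LSTEP := by
  intro n X _ _ g₀ ϱ c₀ hn hg₀ hϱ hc₀
  have sψ : Smooth fun x => Real.smoothTransition (ϱ x) := Real.smoothTransition.contDiff.compM hϱ
  set ψ : X → ℝ := fun x => Real.smoothTransition (ϱ x) with hψ
  obtain ⟨P, P0, hP⟩ := bd_cont isCompact_univ (hg₀.cont_ip sψ.one sψ.one)
  refine ⟨16 * P / c₀, fun β hβ β0 g v V k q η hg hup hv' hV hk V0 k0 q0 q1 η0 hc => ?_⟩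
  obtain ⟨V₀, k₀, V1, k1, hc⟩ : ∃ V₀ k₀ : ℝ, 0 ≤ V₀ ∧ 0 < k₀ ∧ ∀ x, 0 < ϱ x → V x = V₀ ∧ k x = k₀ := by
    obtain ⟨V₀, k₀, hc⟩ := hc
    by_cases h : ∃ x, 0 < ϱ x
    · obtain ⟨x, hx⟩ := h
      exact ⟨V₀, k₀, (hc x hx).1 ▸ V0 x, (hc x hx).2 ▸ k0 x, hc⟩
    · exact ⟨0, 1, le_rfl, one_pos, fun x hx => (h ⟨x, hx⟩).elim⟩
  -- barriers
  obtain ⟨x₁, -, m1⟩ := isCompact_univ.exists_isMinOn univ_nonempty hk.cont.continuousOn
  obtain ⟨Vm, Vm0, m2⟩ := bd_cont isCompact_univ hV.cont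
  obtain ⟨km, km0, km1, km2⟩ : ∃ km > (0 : ℝ), km ≤ k₀ ∧ ∀ x, km ≤ k x :=
    ⟨min k₀ (k x₁), lt_min k1 (k0 _), min_le_left _ _,
      fun x => (min_le_right _ _).trans (m1 (mem_univ x))⟩
  obtain ⟨a, a0, a1, a2', a3⟩ := exists_a km0 β0 (add_nonneg Vm0 V1)
  -- cutoffs and the smallness
  obtain ⟨κ', sκ, rκ, zκ, oκ⟩ := cutoff hϱ (by norm_num : (3 : ℝ) < 13 / 4)
  obtain ⟨χ', sχ', rχ', zχ', oχ'⟩ := cutoff hϱ (by norm_num : (7 / 2 : ℝ) < 15 / 4)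
  obtain ⟨χ, sχ, rχ, oχ, zχ⟩ : ∃ χ : X → ℝ, Smooth χ ∧ (∀ x, 0 ≤ χ x ∧ χ x ≤ 1) ∧
      (∀ x, ϱ x < 7 / 2 → χ =ᶠ[𝓝 x] fun _ => 1) ∧ ∀ x, 15 / 4 < ϱ x → χ =ᶠ[𝓝 x] fun _ => 0 :=
    ⟨fun x => 1 - χ' x, CD.sub cd_const sχ', fun x => ⟨by linarith [(rχ' x).2], by
      linarith [(rχ' x).1]⟩, fun x h => (zχ' x h).mono fun y hy => by simp [hy],
      fun x h => (oχ' x h).mono fun y hy => by simp [hy]⟩
  have cT : IsCompact {x | 2 ≤ ϱ x} := (isClosed_le continuous_const hϱ.cont).isCompact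
  have oO : IsOpen {x | 1 < ϱ x} := isOpen_lt continuous_const hϱ.cont
  obtain ⟨δ, δ0, hδ⟩ := tailK hg hv' sχ sκ rχ rκ cT
    (fun x => (lt_or_ge (ϱ x) (7 / 2)).imp (oχ x) fun h => oκ x (by linarith))
    (fun x hx => .inr (zκ x (by simp at hx; linarith))) (half_pos η0)
  obtain ⟨K, K0, hK⟩ := bd_cont isCompact_univ (hg.cont_gn sχ.one)
  obtain ⟨ε, ε0, ε1, ε2, ε3, ε4, ε5⟩ : ∃ ε > (0 : ℝ), ε ≤ δ ∧ ε * (1 + K) ≤ 1 ∧ ε * (1 + K) ≤ η ∧
      ε ≤ η / 2 * a ^ 2 ∧ ε * (2 * k₀ + 3) ≤ η / 2 := by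
    have p : 0 < 1 + K := by positivity
    refine ⟨min (min (min δ (η / 2 / (2 * k₀ + 3))) (η / 2 * a ^ 2)) (min 1 η / (1 + K)),
      by positivity, ((min_le_left _ _).trans (min_le_left _ _)).trans (min_le_left _ _), ?_, ?_,
      (min_le_left _ _).trans (min_le_right _ _), (le_div_iff₀ (by positivity)).1
        (((min_le_left _ _).trans (min_le_left _ _)).trans (min_le_right _ _))⟩
    · exact ((le_div_iff₀ p).1 (min_le_right _ _)).trans (min_le_left _ _)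
    · exact ((le_div_iff₀ p).1 (min_le_right _ _)).trans (min_le_right _ _)
  obtain ⟨A₁, A0', hA⟩ := decayS hg hv' cT oO (fun x hx => by simp at hx ⊢; linarith) a⁻¹ ε0
  obtain ⟨A₀, A0, A3, A4⟩ : ∃ A₀ > (0 : ℝ), A₁ ≤ A₀ ∧ k₀ * V₀ ≤ η / 2 * A₀ :=
    ⟨max A₁ (k₀ * V₀ / (η / 2)), lt_max_of_lt_left A0', le_max_left _ _,
      (div_le_iff₀' (half_pos η0)).1 (le_max_right _ _)⟩
  -- the spring and the solution
  obtain ⟨κ, sk, hκ⟩ := spring hg sψ (fun _ => ⟨Real.smoothTransition.nonneg _,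
    Real.smoothTransition.le_one _⟩) β0 (m := 1 + A₀ / β) (by positivity) (c₀ := c₀) fun x => by
      have h1 := pow_le_pow_left₀ (gn_nonneg _ _ _) (hup.gn_le hg₀ hg ψ x) 2
      rw [hg.gn_sq, hg₀.gn_sq] at h1
      linarith [(le_abs_self _).trans (hP x trivial), (div_le_iff₀' hc₀).1 hβ]
  set A := β * (1 + A₀ / β) ^ 2 with hA'
  have A1 : A₀ ≤ A := by
    have h1 : β * (A₀ / β) = A₀ := mul_div_cancel₀ _ β0.ne'
    have h2 : 0 ≤ A₀ / β := by positivity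
    nlinarith [mul_nonneg β0.le (sq_nonneg (A₀ / β))]
  have A2 : 0 ≤ A := A0.le.trans A1
  obtain ⟨w, hw, wI, eq⟩ := exists_sol hn hg hv' hV hk sk V0 k0 (fun x => (hκ x).1) q0 β0 a0 a1
    fun x => low_bar a0 β0 a2' a3 (by linarith [(le_abs_self _).trans (m2 x trivial)]) (km2 x)
      (hκ x).1
  -- the constant
  have B0 : 0 < β + A := by positivity
  have B1 : 0 < V₀ + (β + A) := by positivity
  set c := √((β + A) * k₀ / (V₀ + (β + A))) with hcd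
  have c2 : c ^ 2 * (V₀ + (β + A)) = (β + A) * k₀ := by
    rw [hcd, Real.sq_sqrt (by positivity), div_mul_cancel₀ _ B1.ne']
  have c1 : a ≤ c := Real.le_sqrt_of_sq_le ((le_div_iff₀ B1).2 (by
    linarith [low_bar a0 β0 a2' a3 (by linarith) km1 A2 (V := V₀)]))
  have c0 := a0.trans_le c1
  have eO : ∀ x, 1 < ϱ x → hv g v w x =
      -(q * (1 - iw g w x) / w x) + V₀ * w x + (β + A) * (w x - k₀ / w x) := fun x hx => by
    rw [eq, Hf, (hc x (by linarith)).1, (hc x (by linarith)).2,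
      (hκ x).2.2.2 (Real.smoothTransition.one_of_one_le hx.le)]
  have dec := hA A (A3.trans A1) (fun t s => -(q * (1 - s) / t) + V₀ * t + (β + A) * (t - k₀ / t)) (Ici a) c w
    (convex_Ici a) c1 (by field_simp; linarith) (fun t ht s hs => by
      have t0 := a0.trans_le ht
      refine ⟨_, _, ?_, ?_, hf_deriv q V₀ (β + A) k₀ t0.ne' s⟩
      · have h1 : 0 ≤ q * (1 - s) / t ^ 2 := div_nonneg (mul_nonneg q0 (sub_nonneg.2 hs.2)) (by positivity)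
        have h2 : 0 ≤ (β + A) * (k₀ / t ^ 2) := by positivity
        linarith
      · rw [abs_of_nonneg (by positivity), ← one_div]
        exact div_le_div₀ zero_le_one q1 a0 ht) hw fun x hx => ⟨(wI x), eO x hx⟩
  obtain ⟨s1, s2, s3⟩ := hδ w (fun _ => c) hw (fun _ => .inr .rfl) fun x hx =>
    ⟨(dec x hx).1.trans ε1, (dec x hx).2.1.trans ε1, (dec x hx).2.2.trans ε1⟩
  set w' : X → ℝ := fun y => c + χ y * (w y - c) with hw'
  refine ⟨w', kv g v κ' w', κ, s1, fun x => ?_, s2, sk, fun x => ⟨(hκ x).1, (hκ x).2.1, fun h =>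
    (hκ x).2.2.1 (Real.smoothTransition.zero_of_nonpos h)⟩, fun x hx => ?_, fun x hx => ⟨?_, ?_, ?_⟩,
    fun x hx => ?_⟩
  · have := mul_nonneg (rχ x).1 (sub_nonneg.2 (wI x))
    simp only [hw']
    linarith only [this, a0, mul_nonneg (sub_nonneg.2 (rχ x).2) (sub_nonneg.2 c1)]
  · have e : w' =ᶠ[𝓝 x] w := (oχ x (by linarith)).mono fun y hy => by simp [hw', hy]
    exact ⟨fun i => (kv_zero (zκ x hx) i).self_of_nhds, by
      rw [(hv_congr e).self_of_nhds, uu, (ww_congr e).self_of_nhds, e.self_of_nhds, eq]⟩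
  · have h1 := gn_cut hg sχ hw (c := c) (w' := w') (x := x) .rfl
    have h2 := mul_le_mul (dec x hx).1 ((le_abs_self _).trans (hK x trivial)) (gn_nonneg _ _ _) ε0.le
    have h3 := (mul_le_of_le_one_left (gn_nonneg g w x) (abs_le.2 ⟨by linarith [(rχ x).1],
      (rχ x).2⟩)).trans (dec x hx).2.1
    rw [← hg.gn_sq]
    exact sq_le_of (gn_nonneg g w' x) (by linarith only [h1, h2, h3]) ε2 ε3
  · rw [(hc x (by linarith)).2]
    refine sq_near c0 k1 V1 (η := η / 2) B0 c2 (A4.trans (mul_le_mul_of_nonneg_left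
      (by linarith only [A1, β0]) (half_pos η0).le)) ?_ (by linarith only [ε2, mul_nonneg ε0.le K0])
      ε5 |>.trans_eq (add_halves η)
    rw [hw', add_sub_cancel_left, abs_mul, abs_of_nonneg (rχ x).1]
    exact (mul_le_of_le_one_left (abs_nonneg _) (rχ x).2).trans (dec x hx).1
  · have x1 : 1 < ϱ x := by linarith
    have w0 := a0.trans_le (wI x)
    have h1 := Rv_ge_of hg hv' hw (x := x) (a := q * (1 - iw g w x) / w x ^ 2 + V₀ +
      (β + A) * (1 + k₀ / w x ^ 2)) (b := q / w x) (by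
        have := sub_nonneg.2 (iw_le hg w x); positivity) fun i =>
      (pd_congr ((oO.eventually_mem x1).mono fun z hz => eO z hz) i).trans
        (pd_comp₂ (Φ := fun t s => -(q * (1 - s) / t) + V₀ * t + (β + A) * (t - k₀ / t))
          (hw.diff x) ((sm_iw hg hw).diff x) (hf_deriv q V₀ (β + A) k₀ w0.ne' _) i)
    have h2 : (q / w x) ^ 2 * ip g w w x ≤ η / 2 := by
      have p1 : q / w x ≤ 1 / a := div_le_div₀ zero_le_one q1 a0 (wI x)
      have p2 : ip g w w x ≤ η / 2 * a ^ 2 := by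
        rw [← hg.gn_sq]
        exact sq_le_of (gn_nonneg g w x) (dec x hx).2.1
          (by linarith only [ε2, mul_nonneg ε0.le K0]) ε4
      refine (mul_le_mul (pow_le_pow_left₀ (by positivity) p1 2) p2 (hg.ip_nonneg w x)
        (sq_nonneg _)).trans_eq ?_
      field_simp
    have h3 := mul_le_mul_of_nonneg_left (show Rv g v x - η / 2 ≤ Rv (gb g 1 w) (vg g v w) x by
      linarith only [h1, h2]) (sub_nonneg.2 (rκ x).2)
    linarith only [h3, s3 x, mul_nonneg (rκ x).1 η0.le]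
  · have e : w' =ᶠ[𝓝 x] fun _ => c := (zχ x (by linarith)).mono fun y hy => by simp [hw', hy]
    exact ⟨(gb_const e).self_of_nhds, fun i => (kv_const e i).self_of_nhds⟩

end Vale.Agent.P210T
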