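import Vale.Agent.P210R.Sta
import Vale.Agent.P210D.Tr

/-!
# P210T: the pointwise inequality `STEP`
-/

open Filter Topology Set
open scoped ContDiff
open Vale.Agent.P366M Vale.Agent.P366M.Gr Vale.Agent.P366M.Y.C Vale.Agent.P366M.Y.C.GbH
open Vale.Agent.P210G Vale.Agent.P210R Vale.Agent.P210D

noncomputable section

namespace Vale.Agent.P210T

variable {n : ℕ} {M : Type} [Mf0 n M] {g : Fld n M} {w V k κ u : M → ℝ} {x : M}

theorem dn_uu (hg : Met g) (hw : Smooth w) (x : M) :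
    dn g w (uu g w) x = -(uu g w x * dn g w (lw g w) x) := by
  have h0 := (w_pos hg w x).ne'
  have d := (sm_w hg hw).diff x
  rw [show uu g w = fun y => (ww g 1 w y)⁻¹ from rfl, dn_comp (χ := fun t => t⁻¹) (hasDerivAt_inv h0) d,
    show lw g w = fun y => Real.log (ww g 1 w y) from rfl, dn_comp (Real.hasDerivAt_log h0) d]
  field_simp

theorem dn_Hf {q β : ℝ} (hw : DAt w x) (hV : DAt V x) (hk : DAt k x) (hκ : DAt κ x) (hu : DAt u x)
    (h0 : w x ≠ 0) : dn g w (fun y => Hf q β V k κ y (w y) (u y)) x =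
      q / w x * dn g w u x + w x * dn g w V x + (w x - k x / w x) * dn g w κ x -
        (β + κ x) / w x * dn g w k x +
        (q * (1 - u x) / w x ^ 2 + V x + (β + κ x) * (1 + k x / w x ^ 2)) * dn g w w x := by
  have d1 : DAt (fun y => q * (1 - u y)) x := (hu.const_sub 1).const_mul q
  have d2 : DAt (fun y => k y / w y) x := hk.div hw h0
  have e : ∀ i, pd i (fun y => Hf q β V k κ y (w y) (u y)) x =
      q / w x * pd i u x + w x * pd i V x + (w x - k x / w x) * pd i κ x -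
        (β + κ x) / w x * pd i k x +
        (q * (1 - u x) / w x ^ 2 + V x + (β + κ x) * (1 + k x / w x ^ 2)) * pd i w x := fun i => by
    simp only [Hf]
    rw [pd_add ((d1.div hw h0).neg.add (hV.mul hw)) ((hκ.const_add β).mul (hw.sub d2)),
      pd_add (d1.div hw h0).neg (hV.mul hw), pd_neg, pd_div d1 hw h0, pd_const_mul, pd_const_sub,
      pd_mul hV hw, pd_mul (hκ.const_add β) (hw.sub d2), pd_const_add, pd_sub hw d2, pd_div hk hw h0]
    field_simp
    ring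
  simp only [dn, ip, e, Finset.mul_sum, Finset.sum_div, ← Finset.sum_add_distrib,
    ← Finset.sum_sub_distrib]
  exact Finset.sum_congr rfl fun _ _ => Finset.sum_congr rfl fun _ _ => by ring

theorem step_alg {q u w k B e D : ℝ} (u0 : 0 < u) (u1 : u ≤ 1) (w0 : 0 < w) (q0 : 0 ≤ q) (q1 : q ≤ 1)
    (k0 : 0 ≤ k) (B0 : 0 ≤ B) (e0 : 0 ≤ e) (hD : D ^ 2 ≤ 4 * k * e * (1 - u ^ 2)) :
    q ^ 2 * (1 - u ^ 2) ^ 2 / w ^ 2 + 2 * q * (1 - q) * ((1 - u) / w) ^ 2 - 2 * B * e ≤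
      2 * ((q * (1 - u) / w ^ 2 + B * (k / w ^ 2)) * ((1 - u ^ 2) / u) - B / w * D) := by
  have s0 : 0 ≤ 1 - u ^ 2 := by nlinarith
  have h1 : 1 - u ^ 2 ≤ (1 - u ^ 2) / u := le_div_self s0 u0 u1
  have h2 : D / w ≤ k / w ^ 2 * (1 - u ^ 2) + e := by
    refine (abs_le_of_sq_le_sq' ?_ (by positivity)).2
    have : (D / w) ^ 2 ≤ 4 * (k / w ^ 2 * (1 - u ^ 2)) * e := by
      rw [div_pow, div_le_iff₀ (by positivity)]
      refine hD.trans_eq ?_
      field_simp
    nlinarith [sq_nonneg (k / w ^ 2 * (1 - u ^ 2) - e)]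
  have h3 := mul_le_mul_of_nonneg_left (h2.trans (add_le_add_left
    (mul_le_mul_of_nonneg_left h1 (by positivity)) e)) B0
  have h4 : q * (1 + u) ^ 2 + 2 * (1 - q) ≤ 2 * ((1 + u) / u) := by
    have : 1 ≤ 1 / u := (one_le_div u0).2 u1
    have e1 : (1 + u) / u = 1 / u + 1 := by field_simp
    nlinarith [mul_nonneg q0 (show 0 ≤ 4 - (1 + u) ^ 2 by nlinarith)]
  have h5 := mul_le_mul_of_nonneg_left h4 (by positivity : 0 ≤ q * ((1 - u) / w) ^ 2)
  have e1 : q ^ 2 * (1 - u ^ 2) ^ 2 / w ^ 2 + 2 * q * (1 - q) * ((1 - u) / w) ^ 2 =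
      q * ((1 - u) / w) ^ 2 * (q * (1 + u) ^ 2 + 2 * (1 - q)) := by field_simp; ring
  have e2 : q * ((1 - u) / w) ^ 2 * (2 * ((1 + u) / u)) =
      2 * (q * (1 - u) / w ^ 2 * ((1 - u ^ 2) / u)) := by field_simp; ring
  have e3 : B / w * D = B * (D / w) := by ring
  rw [e1, e3]
  linarith

/-- **STEP** -/
theorem step : STEP := by
  intro n M _ g v w V k κ q β e x hg hv' hw hV hk hκ w0 k0 B0 q0 q1 e0 hke eq
  refine ⟨hq_nn hg hw q x, ?_⟩
  have su : Smooth (uu g w) := CD.inv (sm_w hg hw) fun y => (w_pos hg w y).ne'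
  have u0 := uu_pos hg w x
  have h1 : dn g w w x = (1 - uu g w x ^ 2) / uu g w x := by
    rw [← uu_dn hg, mul_div_cancel_left₀ _ u0.ne']
  have h2 : dn g w k x ^ 2 ≤ 4 * k x * e * (1 - uu g w x ^ 2) := by
    have := ev_cs hg (df k) (nv g w) x
    rw [ev_df_nv hg, iv_df, gq_nv' hg] at this
    exact this.trans (mul_le_mul_of_nonneg_right hke (gq_nv' hg w x ▸ gq_nonneg hg _ x))
  have h3 := step_alg u0 (uu_le hg w x) (w0 x) q0 q1 k0 B0 e0 h2
  rw [gid hg hv' hw, dn_congr .rfl eq, dn_Hf (hw.diff x) (hV.diff x) (hk.diff x) (hκ.diff x)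
    (su.diff x) (w0 x).ne', dn_uu hg hw, h1, hq, P210R.yy]
  have e1 : 2 * q * uu g w x * dn g w (lw g w) x / w x =
    2 * (q / w x * (uu g w x * dn g w (lw g w) x)) := by ring
  rw [e1]
  linarith

end Vale.Agent.P210T
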