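import Vale.Agent.P210E.Defs
import Vale.Agent.P210H.Wall

/-!
# P210T: the two-sided truncation `TRUNC`
-/

open Filter Topology Set
open scoped ContDiff
open Vale.Agent.P366M

noncomputable section

namespace Vale.Agent.P210T

theorem prof2 {A : ℝ} (hA : 0 < A) : ∃ T, A ≤ 2 * T ∧ ∃ Ψ : ℝ → ℝ, ContDiff ℝ ∞ Ψ ∧
    (∀ s, |s| ≤ T → Ψ s = s) ∧ (∀ s, 2 * T ≤ s → Ψ s = A) ∧ (∀ s, Ψ (-s) = -Ψ s) ∧
    ∀ s, T ≤ s → T ≤ Ψ s ∧ Ψ s ≤ A ∧ |deriv Ψ s| * s ^ 2 ≤ Ψ s ^ 2 := by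
  obtain ⟨a, a0, h⟩ := P210H.prof
  obtain ⟨φ, s, h1, h2, m, h3⟩ := h A hA
  have T0 : 0 < A / a := div_pos hA a0
  generalize A / a = T at *
  have d := s.differentiable (by simp)
  have p : ∀ t, T ≤ t → T ≤ φ t := fun t ht => (h1 _ le_rfl).ge.trans (m ht)
  have e : ∀ t, -T ≤ t → φ t - φ (-t) - t = φ t := fun t ht => by rw [h1 (-t) (by linarith)]; ring
  have k : MonotoneOn (fun t => (φ t)⁻¹ - t⁻¹) (Ici T) := by
    have hd : ∀ t, T ≤ t → HasDerivAt (fun t => (φ t)⁻¹ - t⁻¹)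
        (-deriv φ t / φ t ^ 2 - -(t ^ 2)⁻¹) t := fun t ht =>
      ((d t).hasDerivAt.fun_inv (T0.trans_le (p t ht)).ne').fun_sub
        (hasDerivAt_inv (T0.trans_le ht).ne')
    refine monotoneOn_of_hasDerivWithinAt_nonneg (convex_Ici T)
      (fun t ht => (hd t ht).continuousAt.continuousWithinAt)
      (fun t ht => (hd t (interior_subset ht)).hasDerivWithinAt) fun t ht => ?_
    have t1 : T ≤ t := interior_subset ht
    have t0 := pow_pos (T0.trans_le t1) 2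
    have t2 := pow_pos (T0.trans_le (p t t1)) 2
    rw [sub_neg_eq_add, neg_div, neg_add_eq_sub, sub_nonneg, div_le_iff₀ t2, inv_mul_eq_div,
      le_div_iff₀ t0]
    exact (mul_le_mul_of_nonneg_right (le_abs_self _) t0.le).trans (h3 t t1)
  refine ⟨T, ?_, fun t => φ t - φ (-t) - t, by fun_prop, fun t ht => ?_, fun t ht => ?_,
    fun t => by simp only [neg_neg]; ring, fun t ht => ?_⟩
  · have := k (mem_Ici.2 le_rfl) (show T ≤ 2 * T by linarith) (by linarith)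
    simp only [h1 T le_rfl, h2 _ le_rfl, sub_self, sub_nonneg] at this
    exact (inv_le_inv₀ (by positivity) hA).1 this
  · simp only
    rw [e t (abs_le.1 ht).1, h1 t (abs_le.1 ht).2]
  · simp only
    rw [e t (by linarith), h2 t ht]
  · have e1 : (fun t => φ t - φ (-t) - t) =ᶠ[𝓝 t] φ :=
      (eventually_gt_nhds (show -T < t by linarith)).mono fun y hy => e y hy.le
    simp only
    rw [e1.deriv_eq, e t (by linarith)]
    exact ⟨p t ht, (m (le_max_left t (2 * T))).trans_eq (h2 _ (le_max_right _ _)), h3 t ht⟩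

open Classical in
/-- **TRUNC** -/
theorem trunc : P210E.TRUNC := by
  intro n M _ g h₀ Fp Fm h₁ hg cp cm dj sm bp bm hb A hA hA1
  obtain ⟨T, hT, Ψ, s, h1, h2, od, h3⟩ := prof2 hA
  have T0 : 0 < T := by linarith
  have d := s.differentiable (by simp)
  have h4 : ∀ t, T ≤ |t| → T ≤ |Ψ t| ∧ |Ψ t| ≤ A ∧ |deriv Ψ t| * t ^ 2 ≤ Ψ t ^ 2 ∧
      (0 < Ψ t ↔ 0 < t) := fun t ht => by
    rcases le_abs.1 ht with k | k
    · obtain ⟨a, b, c⟩ := h3 t k
      rw [abs_of_pos (T0.trans_le a)]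
      exact ⟨a, b, c, iff_of_true (by linarith) (by linarith)⟩
    · obtain ⟨a, b, c⟩ := h3 _ k
      have e : deriv Ψ (-t) = deriv Ψ t := by
        have k1 := ((d (-t)).hasDerivAt.comp t (hasDerivAt_neg t)).fun_neg
        have k2 : (fun y => -(Ψ ∘ Neg.neg) y) = Ψ := funext fun y => by simp [od]
        rw [k2] at k1
        rw [k1.deriv]; ring
      rw [od] at a b c
      rw [e, neg_sq, neg_sq] at c
      rw [abs_of_neg (by linarith : Ψ t < 0)]
      exact ⟨a, b, c, iff_of_false (by linarith) (by linarith)⟩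
  have TA : T ≤ A := (h3 T le_rfl).1.trans (h3 T le_rfl).2.1
  obtain ⟨h, e⟩ : ∃ h : M → ℝ, h = fun x => if x ∈ Fp then A else if x ∈ Fm then -A else Ψ (h₀ x) :=
    ⟨_, rfl⟩
  have e1 : ∀ x ∈ Fp, h x = A := fun x hx => by simp only [e, if_pos hx]
  have e2 : ∀ x ∈ Fm, h x = -A := fun x hx => by
    simp only [e, if_pos hx, if_neg (disjoint_right.1 dj hx)]
  have e3 : ∀ x ∉ Fp ∪ Fm, h x = Ψ (h₀ x) := fun x hx => by
    simp only [e, if_neg fun k => hx (.inl k), if_neg fun k => hx (.inr k)]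
  have v1 : ∀ x ∈ Fp, h =ᶠ[𝓝 x] fun _ => A := fun x hx => by
    filter_upwards [bp x hx (2 * T), cm.isOpen_compl.mem_nhds (disjoint_left.1 dj hx)] with y a b
    by_cases k : y ∈ Fp
    · exact e1 y k
    · rw [e3 y (not_or.2 ⟨k, b⟩), h2 _ (a k)]
  have v2 : ∀ x ∈ Fm, h =ᶠ[𝓝 x] fun _ => -A := fun x hx => by
    filter_upwards [bm x hx (-(2 * T)), cp.isOpen_compl.mem_nhds (disjoint_right.1 dj hx)] with y a b
    by_cases k : y ∈ Fm
    · exact e2 y k
    · rw [e3 y (not_or.2 ⟨b, k⟩), ← neg_neg (h₀ y), od, h2 _ (le_neg.1 (a k))]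
  have v3 : ∀ x ∉ Fp ∪ Fm, h =ᶠ[𝓝 x] fun y => Ψ (h₀ y) := fun x hx =>
    Eventually.mono ((cp.union cm).isOpen_compl.mem_nhds hx) e3
  refine ⟨h, cd_of_cAt le_rfl fun x => ?_, fun x => ?_, e1, e2, fun x hx => ?_, fun x hx => ?_⟩
  · by_cases k : x ∈ Fp ∪ Fm
    · exact k.elim (fun k => cAt_const.congr_of_eventuallyEq (v1 x k))
        fun k => cAt_const.congr_of_eventuallyEq (v2 x k)
    · exact (s.contDiffAt.compM (sm x k)).congr_of_eventuallyEq (v3 x k)
  · by_cases k : x ∈ Fp ∪ Fm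
    · rcases k with k | k
      · rw [e1 x k, abs_of_pos hA]
      · rw [e2 x k, abs_neg, abs_of_pos hA]
    · rw [e3 x k]
      rcases le_total |h₀ x| T with k' | k'
      · rw [h1 _ k']; exact k'.trans TA
      · exact (h4 _ k').2.1
  · rcases hx with k | k
    · rw [gn_congr (v1 x k)]; exact gn_zero fun i => pd_const _ i _
    · rw [gn_congr (v2 x k)]; exact gn_zero fun i => pd_const _ i _
  rcases lt_or_ge |h₀ x| T with k | k
  · have v4 : h =ᶠ[𝓝 x] h₀ := by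
      filter_upwards [v3 x hx, (sm x hx).continuousAt.abs.eventually (gt_mem_nhds k)] with y a b
      rw [a, h1 _ b.le]
    rw [gn_congr v4, v4.self_of_nhds]
    exact ⟨Iff.rfl, min_le_left _ _⟩
  · obtain ⟨a, -, c, i⟩ := h4 _ k
    rw [gn_congr (v3 x hx), e3 x hx, gn_comp (d _).hasDerivAt ((sm x hx).differentiableAt (by simp))]
    refine ⟨i, (min_le_right _ _).trans ?_⟩
    have k1 := mul_le_mul_of_nonneg_left (hb x hx (by linarith)) (abs_nonneg (deriv Ψ (h₀ x)))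
    have k2 := pow_le_pow_left₀ (by positivity : 0 ≤ A / 2) (le_trans (by linarith) a) 2
    rw [sq_abs] at k2
    nlinarith

end Vale.Agent.P210T
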